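import Vale.Agent.P354FX.Wy
import Vale.Agent.P354YK.La
import Vale.Agent.P354XR.Br

/-!
The curvature of a plane in a null frame, and the components of one frame in another frame.
-/

noncomputable section

namespace Vale.Agent.P354FC

open Vale.Agent.P354XG Vale.Agent.P354XG.Geo Vale.Agent.P354XD Vale.Agent.P354XR
open Vale.Agent.P354Z Vale.Agent.P354FX

variable {A : Type} [CommRing A] [Algebra ℂ A]

/-- The components of a bivector, and the quadratic form. -/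
def bv (x y : Fin 4 → A) (a b : Fin 4) : A := x a * y b - x b * y a

def wq (p q : ℕ → A) (x y : Fin 4 → A) : A :=
  -(p 2 * ((bv x y 0 1 - bv x y 2 3) * (bv x y 0 1 - bv x y 2 3) - 2 * (bv x y 0 2 * bv x y 1 3)) +
    q 2 * ((bv x y 0 1 + bv x y 2 3) * (bv x y 0 1 + bv x y 2 3) - 2 * (bv x y 0 3 * bv x y 1 2)) +
    p 0 * (bv x y 0 2 * bv x y 0 2) + q 0 * (bv x y 0 3 * bv x y 0 3) +
    q 4 * (bv x y 1 2 * bv x y 1 2) + p 4 * (bv x y 1 3 * bv x y 1 3) +
    2 * ((p 1 * bv x y 0 2 - p 3 * bv x y 1 3) * (bv x y 0 1 - bv x y 2 3)) +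
    2 * ((q 1 * bv x y 0 3 - q 3 * bv x y 1 2) * (bv x y 0 1 + bv x y 2 3)))

omit [Algebra ℂ A] in
theorem wq_pr (p q : ℕ → A) (x y : Fin 4 → A) : wq p q x y =
    wq (fun k => p (4 - k)) (fun k => q (4 - k)) ![x 1, x 0, x 3, x 2] ![y 1, y 0, y 3, y 2] := by
  simp only [wq, bv, Matrix.cons_val]; ring

theorem wy_wq {B : List (Vec A) → A} {l n m mb : Vec A} (h : Wy B l n m mb) (x y : Fin 4 → A) :
    B [x 0 • l + x 1 • n + x 2 • m + x 3 • mb, y 0 • l + y 1 • n + y 2 • m + y 3 • mb,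
      x 0 • l + x 1 • n + x 2 • m + x 3 • mb, y 0 • l + y 1 • n + y 2 • m + y 3 • mb] =
      wq (pk B l n m mb) (pk B l n mb m) x y := by
  have T := h.tb
  generalize pk B l n m mb = p, pk B l n mb m = q at T ⊢
  simp only [h.ml.a1, h.ml.a2, h.ml.a3, h.ml.a4, h.ml.s1, h.ml.s2, h.ml.s3, h.ml.s4,
    h.d12, h.d34, T.s1, T.s2, T.s3, T.s4, T.s5, T.s6, T.t1, T.t2, T.t3, T.t4, T.t5, T.t6, T.a,
    T.b, T.c, T.d, T.e, T.f, wq, bv]
  ring

/-- The components of a vector, the vectors of a frame, the Weyl scalars. -/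
def co (S : Geo A) (F : Fr A) (X : Vec A) : Fin 4 → A :=
  ![-S.dot X F.n, -S.dot X F.l, S.dot X F.mb, S.dot X F.m]
def fv4 (F : Fr A) : Fin 4 → Vec A := ![F.l, F.n, F.m, F.mb]
def ps (G : GHP A) : ℕ → A
  | 0 => G.P0
  | 1 => G.P1
  | 2 => G.P2
  | 3 => G.P3
  | 4 => G.P4
  | _ => 0

theorem W_wq {S : Geo A} {F : Fr A} (h : S.Is) (N : F.WN S) (X Y : Vec A) : S.W X Y X Y =
    wq (ps (F.ghp S)) (fun k => S.c (ps (F.ghp S) k)) (co S F X) (co S F Y) := by
  have M : Null S F.l F.n F.m F.mb := N.nl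
  have e := wy_wq (wy_Jt h N []) (co S F X) (co S F Y)
  simp only [co, Matrix.cons_val, ← Null.span h M, List.nil_append, Jt_four] at e
  rw [e]
  simp only [wq, pk, ps, Jt_four, F.ghp_P, Fr.p0, Fr.p1, Fr.p2, Fr.p3, Fr.p4, map_neg, h.c_W, M.c_l,
    M.c_n, M.c_m, M.c_mb h, co]

variable {K : Hp A} {p p' : Pm A} {g : Fin 4 → Fin 4 → A} {Γ : Fin 4 → Fin 4 → Fin 4 → A}
  {F F' : Fr A}

/-- The inclusion of the horizontal indices. -/
def u4 : Fin 4 → Fin 6 := ![0, 1, 2, 3]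

theorem cm_co (h : K.Is) (s : (K.geo g Γ).Is) (N : F.WN (K.geo g Γ)) (u : Op A) (i : Fin 4) :
    cm K p ((K.geo g Γ).act u) (u4 i) =
      ∑ b, co (K.geo g Γ) F u.X b * cm K p (f4 (F.ghp (K.geo g Γ)) b) (u4 i) := by
  obtain ⟨-, -, -, -, -, -, -, -, -, -, -, -, -, -, c, d⟩ := h.tab
  obtain ⟨α, β, e⟩ : ∃ α β, ∀ f, (K.geo g Γ).act u f =
      ∑ b, co (K.geo g Γ) F u.X b * f4 (F.ghp (K.geo g Γ)) b f + α * K.H f + β * K.B f := by
    let S := K.geo g Γ
    let t := S.hat F.l F.n F.m F.mb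
    refine ⟨u.a - ∑ b, co S F u.X b * (t (fv4 F b)).a, u.b - ∑ b, co S F u.X b * (t (fv4 F b)).b,
      fun f => ?_⟩
    have k := congrFun (Null.span s N.nl u.X)
    simp only [Pi.add_apply, Pi.smul_apply, smul_eq_mul] at k
    simp only [Fin.sum_univ_four]
    change S.act u f = _ * S.act (t F.l) f + _ * S.act (t F.n) f + _ * S.act (t F.m) f +
      _ * S.act (t F.mb) f + _ * S.H f + _ * S.Hb f
    simp only [act_apply, Fin.sum_univ_four, Matrix.cons_val, co, fv4, show ∀ X, (t X).X = X from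
      fun _ => rfl]
    linear_combination S.L 0 f * k 0 + S.L 1 f * k 1 + S.L 2 f * k 2 + S.L 3 f * k 3
  generalize co (K.geo g Γ) F u.X = x, f4 (F.ghp (K.geo g Γ)) = D, (K.geo g Γ).act u = E at e
  fin_cases i <;> simp only [cm, u4, e, c, d, Fin.sum_univ_four, Fin.reduceFinMk,
    Matrix.cons_val] <;> ring

theorem f4_co (h : K.Is) (s : (K.geo g Γ).Is) (N : F.WN (K.geo g Γ)) (a i : Fin 4) :
    cm K p (f4 (F'.ghp (K.geo g Γ)) a) (u4 i) =
      ∑ b, co (K.geo g Γ) F (fv4 F' a) b * cm K p (f4 (F.ghp (K.geo g Γ)) b) (u4 i) := by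
  fin_cases a <;> exact cm_co h s N _ i

/-- The shear between the two charts. -/
def sh (K : KC A) (Di : A) : Fin 4 → A :=
  ![-(2 * K.W * Di), 0, -(ii A * K.a * K.s * Di), ii A * K.a * K.sb * Di]

theorem cm_sh {Di : A} (h1 : p'.h1 = p.h1 + 2 * (kk K p).W * Di) (h2 : p'.j1 = p.a * Di)
    (h3 : p.j1 = 0) (D : Der A) (i : Fin 4) :
    cm K p D (u4 i) = cm K p' D (u4 i) + sh (kk K p) Di i * cm K p' D 1 := by
  fin_cases i <;> simp only [cm, u4, sh, h1, h2, h3, Fin.reduceFinMk, Matrix.cons_val, kk] <;> ring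

/-- The horizontal components of the two frames of Kerr, and their ratio. -/
def ko (K : KC A) : Fin 4 → Fin 4 → A :=
  ![![0, K.N, 0, 0], ![2 * K.Ni * K.sg * K.W, -(K.Ni * K.sg * K.De), ii A * K.a * K.s * K.Ni * K.sg,
    -(ii A * K.a * K.sb * K.Ni * K.sg)], ![ii A * K.a * K.s * K.zb, 0, 0, K.zb],
    ![-(ii A * K.a * K.sb * K.z), 0, K.z, 0]]
def ki (K : KC A) : Fin 4 → Fin 4 → A :=
  ![![2 * K.N * K.sg * K.W, K.N * K.sg * K.De, ii A * K.a * K.N * K.sg * K.s,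
    -(ii A * K.a * K.N * K.sg * K.sb)], ![0, -K.Ni, 0, 0], ![ii A * K.a * K.s * K.zb, 0, 0, K.zb],
    ![-(ii A * K.a * K.sb * K.z), 0, K.z, 0]]
def x0 (K : KC A) (Di : A) : Fin 4 → A :=
  ![K.sg * K.De, (K.r * K.r + K.a * K.a * K.x * K.x) * Di, 1, 1]

theorem cm_ko (h : K.Is) (b i : Fin 4) :
    cm K p (f4 (P354YK.out (kk K p)) b) (u4 i) = ko (kk K p) b i := by
  fin_cases b <;> simp only [f4, P354YK.out, Fin.reduceFinMk, Matrix.cons_val, P354YK.oth,
    P354YK.otp, P354YK.oet, P354YK.oep, P354YK.cm_V h] <;> fin_cases i <;> rfl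

theorem cm_ki (h : K.Is) (b i : Fin 4) :
    cm K p (f4 (kk K p).kerr b) (u4 i) = ki (kk K p) b i := by
  fin_cases b <;> simp only [f4, KC.kerr, Fin.reduceFinMk, Matrix.cons_val, KC.th, KC.tp, KC.et,
    KC.ep, P354YK.cm_V h] <;> fin_cases i <;> rfl

theorem ki_ko {K : KC A} (h : K.Is) {Di : A} (d : K.De * Di = 1) (a i : Fin 4) :
    ki K a i + sh K Di i * ki K a 1 = x0 K Di a * ko K a i := by
  have g := h.hg
  fin_cases a <;> fin_cases i <;> simp only [ki, ko, sh, x0, Fin.reduceFinMk, Matrix.cons_val]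
  any_goals ring1
  · linear_combination -(2 * K.N * K.sg * K.W) * d
  · linear_combination -(ii A * K.a * K.N * K.sg * K.s) * d
  · linear_combination ii A * K.a * K.N * K.sg * K.sb * d
  · linear_combination -(2 * K.W * Di * K.Ni) * g
  · linear_combination K.Ni * d + K.Ni * K.De * Di * g
  · linear_combination -(ii A * K.a * K.s * Di * K.Ni) * g
  · linear_combination ii A * K.a * K.sb * Di * K.Ni * g

/-- The inverse of the outgoing frame. -/
def i1 (K : KC A) (t : Fin 4 → A) : A :=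
  hf A * K.N * (t 0 - ii A * K.a * K.s * t 3 + ii A * K.a * K.sb * t 2)
def iv (K : KC A) (t : Fin 4 → A) : Fin 4 → A :=
  ![K.Ni * (t 1 - ko K 1 1 * i1 K t), i1 K t,
    (K.r + ii A * K.a * K.x) * (t 3 - ko K 1 3 * i1 K t),
    (K.r - ii A * K.a * K.x) * (t 2 - ko K 1 2 * i1 K t)]

theorem iv_ko {K : KC A} (h : K.Is) (v : Fin 4 → A) : iv K (fun i => ∑ b, v b * ko K b i) = v := by
  have e : i1 K (fun i => ∑ b, v b * ko K b i) = v 1 := by
    simp only [i1, ko, Fin.sum_univ_four, Matrix.cons_val, KC.W]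
    linear_combination v 1 * h.hN + v 1 * K.N * K.Ni * h.hg +
      v 1 * K.N * K.Ni * K.sg * (K.r * K.r + K.a * K.a * K.x * K.x) * two_hf (A := A) -
      2 * hf A * v 1 * K.N * K.Ni * K.sg * K.a * K.a * h.hs +
      2 * hf A * v 1 * K.N * K.Ni * K.sg * K.a * K.a * K.s * K.sb * ii_sq (A := A)
  funext i
  fin_cases i <;> simp only [iv, e, Fin.reduceFinMk, Matrix.cons_val] <;>
    simp only [ko, Fin.sum_univ_four, Matrix.cons_val]
  · linear_combination v 0 * h.hN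
  · linear_combination v 2 * h.zb_ze
  · linear_combination v 3 * h.z_ze

theorem iv_lin (K : KC A) (u v : Fin 4 → A) (d : Fin 4 → Fin 4 → A) (b : Fin 4) :
    iv K (fun i => u i - ∑ c, v c * d c i) b = iv K u b + ∑ c, -iv K (d c) b * v c := by
  fin_cases b <;> simp only [iv, i1, Fin.reduceFinMk, Matrix.cons_val, Fin.sum_univ_four] <;> ring

end Vale.Agent.P354FC
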