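import Vale.Agent.P354FC.Alg
import Vale.Agent.P354DR.Cht
import Vale.Agent.P354YK.Ins
import Vale.Agent.P354SI.Sl
import Vale.Agent.P354CV.Bas

/-!
The restriction of a state to the intersection of the near and the far region.
-/

open scoped ContDiff
open Set
open Filter hiding pmap

noncomputable section

namespace Vale.Agent.P354FC

open Vale.Agent.P354XG Vale.Agent.P354XD Vale.Agent.P354XR Vale.Agent.P354XI Vale.Agent.P354Z
open Vale.Agent.P354YA (HHom GHom Rx rx_nb fm vm map_ii)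
open Vale.Agent.P354DR (pmap hom_kc dat_hom kerr_hom)
open Vale.Agent.P354YK (out oth cm_V act_cm hhom_Om cone_is cone_pos)
open Vale.Agent.P354CV (fv_rf hs_on js_on ho_on)
open Vale.Agent.P354BF (De)
open Vale.Agent.P354XL (sinv sinv_eq sinv_sm)
open Vale.Agent.P354XE (Tw)

section alg
variable {A B : Type} [CommRing A] [Algebra ℂ A] [CommRing B] [Algebra ℂ B] {K : Hp A} {K' : Hp B}
  {φ : A →ₐ[ℂ] B} (h : HHom K K' φ) (p : Pm A)
include h

theorem V_hom (e1 e2 e3 e4 e5 e6 f : A) : φ ((kk K p).V e1 e2 e3 e4 e5 e6 f) =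
    (kk K' (pmap φ p)).V (φ e1) (φ e2) (φ e3) (φ e4) (φ e5) (φ e6) (φ f) := by
  obtain ⟨a1, a2, a3⟩ := hom_kc h
  rw [kk_V, kk_V, KC.V_ap, KC.V_ap]
  simp only [map_add, map_sub, map_mul, a1, a2, a3, map_ii, pmap]
  simp only [Hp.kc, h.d, h.P, h.Q, h.H, h.Bf]

theorem gen_hom : φ (kk K p).x = (kk K' (pmap φ p)).x ∧ φ (kk K p).s = (kk K' (pmap φ p)).s ∧
    φ (kk K p).sb = (kk K' (pmap φ p)).sb ∧ φ (kk K p).r = (kk K' (pmap φ p)).r ∧
    φ (kk K p).N = (kk K' (pmap φ p)).N ∧ φ (kk K p).Ni = (kk K' (pmap φ p)).Ni ∧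
    φ (kk K p).sg = (kk K' (pmap φ p)).sg ∧ φ (kk K p).a = (kk K' (pmap φ p)).a ∧
    φ (kk K p).M = (kk K' (pmap φ p)).M :=
  ⟨(hom_kc h).1, (hom_kc h).2.1, (hom_kc h).2.2, h.z 1, h.N, h.Ni, rfl, rfl, rfl⟩

theorem out_hom : GHP.Hom (out (kk K p)) (out (kk K' (pmap φ p))) φ := by
  constructor
  case c => exact h.c
  case H => exact h.H
  case Hb => exact h.Bf
  all_goals
    simp only [out, oth, P354YK.otp, P354YK.oet, P354YK.oep, P354YK.orh, P354YK.orh2, P354YK.ga,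
      P354YK.gab, V_hom h, KC.z, KC.zb, KC.ee, KC.De, KC.W, KC.ta, KC.ta2, KC.P2, map_add, map_sub,
      map_mul, map_neg, map_ofNat, map_zero, map_ii, gen_hom h p, implies_true]

theorem Wi_hom (b : Bool) : φ ((kk K p).Wi b) = (kk K' (pmap φ p)).Wi b := by
  cases b <;> simp only [KC.Wi, cond, KC.zb, map_add, map_sub, map_mul, map_ii, gen_hom h p]

theorem R_hom (f : A) : φ ((kk K p).R f) = (kk K' (pmap φ p)).R (φ f) := by
  simpa [KC.V_ap] using V_hom h p 0 1 0 0 0 0 f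

theorem lt_hom (a : Fin 5) (f : A) : φ (lt K p a f) = lt K' (pmap φ p) a (φ f) := by
  fin_cases a
  exacts [h.d 0 f, R_hom h p f, hhom_Om h 0 f, hhom_Om h 1 f, hhom_Om h 2 f]

omit h p

variable {p p' : Pm A} {g : Fin 4 → Fin 4 → A} {Γ : Fin 4 → Fin 4 → Fin 4 → A} {F F' : Fr A}

theorem d_th {G : GHP A} (e : G.th = oth (kk K p)) (i : Fin 6) :
    dat K p G (.inl (0, i)) - dat K p (out (kk K p)) (.inl (0, i)) = 0 :=
  sub_eq_zero.2 (congrArg (cm K p · i) e)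

theorem th_of (h : K.Is) (e : ∀ i, dat K p (F.ghp (K.geo g Γ)) (.inl (0, i)) -
    dat K p (out (kk K p)) (.inl (0, i)) = 0) : (F.ghp (K.geo g Γ)).th = oth (kk K p) := by
  have a : ∀ i, cm K p (F.ghp (K.geo g Γ)).th i = cm K p (oth (kk K p)) i :=
    fun i => sub_eq_zero.1 (e i)
  rw [act_cm (p := p) h _ (D := (F.ghp (K.geo g Γ)).th) rfl]
  simp only [a]
  rw [oth, cm_V h]
  rfl

theorem ki_eq (h1 : p'.a = p.a) (h2 : p'.M = p.M) (h3 : p'.sg = p.sg) :
    ki (kk K p') = ki (kk K p) ∧ (kk K p').Wi = (kk K p).Wi := by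
  cases p; cases p'; cases h1; cases h2; cases h3; exact ⟨rfl, rfl⟩

theorem fc_alg (h : K.Is) (s : (K.geo g Γ).Is) (N : F.WN (K.geo g Γ)) {Di : A}
    (h1 : p'.h1 = p.h1 + 2 * (kk K p).W * Di) (h2 : p'.j1 = p.a * Di) (h3 : p.j1 = 0)
    (k : ki (kk K p') = ki (kk K p)) (a i : Fin 4) :
    ∑ b, co (K.geo g Γ) F (fv4 F' a) b * (ko (kk K p) b i +
      (dat K p (F.ghp (K.geo g Γ)) (.inl (b, u4 i)) - dat K p (out (kk K p)) (.inl (b, u4 i)))) =
    ki (kk K p) a i + (dat K p' (F'.ghp (K.geo g Γ)) (.inl (a, u4 i)) -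
      dat K p' (kk K p').kerr (.inl (a, u4 i))) + sh (kk K p) Di i * (ki (kk K p) a 1 +
        (dat K p' (F'.ghp (K.geo g Γ)) (.inl (a, u4 1)) -
          dat K p' (kk K p').kerr (.inl (a, u4 1)))) := by
  simp only [dat, Sum.elim_inl, cm_ko h, cm_ki h, k, add_sub_cancel]
  exact (f4_co h s N a i).symm.trans (cm_sh h1 h2 h3 _ i)

end alg

section res
variable {O O' : Set E6} (h : O' ⊆ O)

theorem rx (h : O' ⊆ O) : Rx (on O') (on O) id := rx_nb (.of_forall fun _ => h)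

/-- The restriction. -/
def rs : Sm (on O) →ₐ[ℂ] Sm (on O') := (rx h).rix

theorem fv_rs (u : Sm (on O)) {x : E6} (hx : x ∈ O') : fv (rs h u) x = fv u x := by
  rw [fv_in _ hx, fv_in _ (h hx)]; exact ev_on ((rx h).rep u) hx

variable (c : Cone O)
include c

theorem rs_hp : HHom (hp (on O)) (hp (on O')) (rs h) := (rx h).hp (cone_pos c).off

theorem rs_geo {g : Tw} (v : ∀ x ∈ O, VacAt g (pj x)) : GHom (ge O g) (ge O' g) (rs h) :=
  (rx h).geo (cone_pos c).off (1 / 2) (g := fun _ => g) (on_of c.op v)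

variable (c' : Cone O')
include c'

theorem rs_rf {f : ℝ → ℝ} (hf : ContDiffOn ℝ ∞ f (Ioi 0)) : rs h (rf O f) = rf O' f :=
  ext_fv c'.op fun _ hx => by rw [fv_rs h _ hx, fv_rf c hf (h hx), fv_rf c' hf hx]

theorem rs_pm (M a : ℝ) :
    pmap (rs h) (pm (on O) (fun _ => M) fun _ => a) = pm (on O') (fun _ => M) fun _ => a := by
  have e1 : rs h (pm (on O) (fun _ => M) fun _ => a).a = (pm (on O') (fun _ => M) fun _ => a).a :=
    (rx h).rix_cst _
  have e2 : rs h (pm (on O) (fun _ => M) fun _ => a).M = (pm (on O') (fun _ => M) fun _ => a).M :=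
    (rx h).rix_cst _
  have e3 := (P354DR.pmap_is (rs_hp h c) (pm_is (cone_pos c) (fun _ => M) fun _ => a)).hg
  have e4 := (pm_is (cone_pos c') (fun _ => M) fun _ => a).hg
  simp only [pmap, e1] at e3
  rw [pmap, e1, e2, show rs h (pm (on O) (fun _ => M) fun _ => a).sg =
    (pm (on O') (fun _ => M) fun _ => a).sg by
      linear_combination (pm (on O') (fun _ => M) fun _ => a).sg * e3 -
        rs h (pm (on O) (fun _ => M) fun _ => a).sg * e4]
  simp only [pm, map_one, map_zero]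

theorem rs_pI {M0 : ℝ} (h0 : 0 < M0) (M a : ℝ) : pmap (rs h) (pI O M0 M a) = pI O' M0 M a := by
  rw [pI, pI, ← rs_pm h c c', ← rs_rf h c c' (hs_on h0 M a), ← rs_rf h c c' (js_on h0 M a)]
  rfl

theorem rs_pO (M0 M a : ℝ) : pmap (rs h) (pO O M0 M a) = pO O' M0 M a := by
  rw [pO, pO, ← rs_pm h c c', ← rs_rf h c c' (ho_on M0), ← map_zero (rs h)]
  rfl

omit c c' in
theorem kIO (O : Set E6) (M0 M a : ℝ) :
    ki (kI O M0 M a) = ki (kO O M0 M a) ∧ (kI O M0 M a).Wi = (kO O M0 M a).Wi :=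
  ki_eq (by simp only [pI, pO]) (by simp only [pI, pO]) (by simp only [pI, pO])

end res

/-- The intersection, the two restrictions, the restricted state. -/
def O3 (E : Est) : Set E6 := E.O1 ∩ E.O2
def r1 (E : Est) : Sm (on E.O1) →ₐ[ℂ] Sm (on (O3 E)) := rs inter_subset_left
def r2 (E : Est) : Sm (on E.O2) →ₐ[ℂ] Sm (on (O3 E)) := rs inter_subset_right
abbrev cap (E : Est) : Est :=
  { E with O1 := O3 E, O2 := O3 E, F1 := fm (r1 E) E.F1, F2 := fm (r2 E) E.F2, sig := 0, tau := 0 }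

/-- The inverse of Delta. -/
def di (E : Est) : Sm (on (O3 E)) := rf _ fun r => sinv (De E.M E.a r)

/-- The hypotheses. -/
structure Ho (c : Cs) (E : Est) : Prop where
  ok : c.Ok
  sh : E.Shape c
  eq : E.Eqs c

namespace Ho
variable {c : Cs} {E : Est} (h : Ho c E)
include h

theorem M0 : 0 < c.M := (abs_nonneg _).trans_lt h.ok.aM
theorem co : Cone (O3 E) := ⟨h.sh.co1.op.inter h.sh.co2.op, fun x a => h.sh.co1.pos x a.1,
  fun x a z e => ⟨h.sh.co1.hom x a.1 z e, h.sh.co2.hom x a.2 z e⟩⟩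
theorem is : (hp (on (O3 E))).Is := cone_is h.co
theorem h1 : HHom (hp _) (hp _) (r1 E) := rs_hp _ h.sh.co1
theorem h2 : HHom (hp _) (hp _) (r2 E) := rs_hp _ h.sh.co2
theorem s1 : GHom (ge _ E.g) (ge _ E.g) (r1 E) := rs_geo _ h.sh.co1 h.eq.v1
theorem s2 : GHom (ge _ E.g) (ge _ E.g) (r2 E) := rs_geo _ h.sh.co2 h.eq.v2
theorem g1 : GHP.Hom E.G1 (cap E).G1 (r1 E) := h.s1.ghp _
theorem g2 : GHP.Hom E.G2 (cap E).G2 (r2 E) := h.s2.ghp _
theorem p1 : pmap (r1 E) (E.p1 c) = (cap E).p1 c := rs_pI _ h.sh.co1 h.co h.M0 _ _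
theorem p2 : pmap (r2 E) (E.p2 c) = (cap E).p2 c := rs_pO _ h.sh.co2 h.co _ _ _
theorem geo : (ge (O3 E) E.g).Is :=
  geo_is (cone_pos h.co).off _ (on_of h.co.op fun x a => h.eq.v1 x a.1)

theorem d1 (i) : r1 E (E.d1 c i) = (cap E).d1 c i := by
  rw [Est.d1, map_sub, dat_hom h.h1 _ h.g1, Est.K1, kI, dat_hom h.h1 _ (kerr_hom h.h1 _)]
  exact congrArg (fun p => dat _ p _ i - dat _ p (kk _ p).kerr i) h.p1

theorem d2 (i) : r2 E (E.d2 c i) = (cap E).d2 c i := by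
  rw [Est.d2, map_sub, dat_hom h.h2 _ h.g2, Est.K2, kO, dat_hom h.h2 _ (out_hom h.h2 _)]
  exact congrArg (fun p => dat _ p _ i - dat _ p (out (kk _ p)) i) h.p2

theorem eqs : (cap E).Eqs c where
  par := h.eq.par
  v1 x a := h.eq.v1 x a.1
  v2 x a := h.eq.v1 x a.1
  w1 := h.s1.wn h.eq.w1
  w2 := h.s2.wn h.eq.w2
  P1 := h.g1.P1.symm.trans (by rw [h.eq.P1, map_zero])
  P3 := h.g1.P3.symm.trans (by rw [h.eq.P3, map_zero])
  unit := h.g1.P2 ▸ h.eq.unit.map (r1 E)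
  th := th_of h.is fun i => (h.d2 (.inl (0, i))).symm.trans
    ((congrArg (r2 E) (d_th h.eq.th i)).trans (map_zero _))
  ka := h.g2.ka.symm.trans (by rw [h.eq.ka, map_zero])
  ta := h.g2.ta'.symm.trans (by
    rw [h.eq.ta]
    exact (out_hom h.h2 _).ta'.trans (congrArg (fun p => (kk _ p).ta2) h.p2))
  lT := by
    have := congrArg (r2 E) h.eq.lT
    rw [map_mul, map_ofNat, h.s2.dot, map_neg, h.h2.N] at this
    refine Eq.trans (congrArg (2 * (ge _ E.g).dot _ ·) (funext fun a => ?_)) this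
    exact (congrArg _ (h.h2.co a).symm).trans (h.h2.d 0 _).symm

/-- The values of Delta and of the cut off. -/
theorem far {x : E6} (a : x ∈ O3 E) :
    12 ≤ x.2.1 ∧ 1 ≤ De E.M E.a x.2.1 ∧ cut c.M (E.M, E.a, x.2.1) = 1 := by
  have b := h.sh.rad2 x a.2
  have m := h.M0
  have r := h.ok.R1
  have p := h.eq.par.2
  refine ⟨by linarith, ?_, ?_⟩
  · rw [De]; nlinarith [sq_nonneg E.a]
  · rw [cut, P354XT.up_one (by linarith) (by linarith), P354XT.dn_one (by linarith) (by linarith),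
      mul_one]

omit h in
theorem di_on : ContDiffOn ℝ ∞ (fun r => sinv (De E.M E.a r)) (Ioi 0) :=
  (sinv_sm.comp (by unfold De; fun_prop)).contDiffOn

theorem fv_di {x : E6} (a : x ∈ O3 E) : fv (di E) x = (De E.M E.a x.2.1 : ℂ)⁻¹ := by
  rw [di, fv_rf h.co di_on a, sinv_eq (h.far a).2.1, Complex.ofReal_inv]

omit h in
theorem fv_r {x : E6} (a : x ∈ O3 E) : fv ((cap E).K2 c).r x = x.2.1 := P354YK.fv_z 1 a
omit h in
theorem fv_a {x : E6} (a : x ∈ O3 E) : fv ((cap E).K2 c).a x = E.a := P354YK.fv_rs (rs_cst _) a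
omit h in
theorem fv_M {x : E6} (a : x ∈ O3 E) : fv ((cap E).K2 c).M x = E.M := P354YK.fv_rs (rs_cst _) a

omit h in
theorem fv_De {x : E6} (a : x ∈ O3 E) : fv ((cap E).K2 c).De x = De E.M E.a x.2.1 := by
  change evO ⟨x, a⟩ _ = _
  simp only [KC.De, map_add, map_sub, map_mul, map_ofNat]
  change fv _ x * fv _ x - 2 * fv _ x * fv _ x + fv _ x * fv _ x = _
  rw [fv_r a, fv_a a, fv_M a, De]
  push_cast
  ring

theorem hD : ((cap E).K2 c).De * di E = 1 := ext_fv h.co.op fun x a => by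
  rw [fv_mul, fv_De a, h.fv_di a, mul_inv_cancel₀ (by exact_mod_cast by linarith [(h.far a).2.1])]
  exact (map_one (evO ⟨x, a⟩)).symm

theorem rf_W : (rf _ fun r => 2 * (r ^ 2 + E.a ^ 2)) = 2 * ((cap E).K2 c).W :=
  ext_fv h.co.op fun x a => by
    rw [fv_rf h.co (by fun_prop) a]
    change _ = evO ⟨x, a⟩ _
    simp only [KC.W, map_add, map_mul, map_ofNat]
    change _ = 2 * (fv _ x * fv _ x + fv _ x * fv _ x)
    rw [fv_r a, fv_a a]
    push_cast
    ring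

theorem rf_a : (rf _ fun _ => 2 * E.a) = 2 * ((cap E).K2 c).a := ext_fv h.co.op fun x a => by
  rw [fv_rf h.co (by fun_prop) a]
  change _ = evO ⟨x, a⟩ _
  simp only [map_mul, map_ofNat]
  change _ = 2 * fv _ x
  rw [fv_a a]
  push_cast
  ring

theorem rf_r : (rf _ fun r => r ^ 2) = ((cap E).K2 c).r * ((cap E).K2 c).r :=
  ext_fv h.co.op fun x a => by
    rw [fv_rf h.co (by fun_prop) a, fv_mul, fv_r a]
    push_cast
    ring

theorem rf_D : (rf _ fun r => De E.M E.a r ^ 2 * sinv r ^ 3) =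
    ((cap E).K2 c).De ^ 2 * (hp (on (O3 E))).ri ^ 3 := ext_fv h.co.op fun x a => by
  rw [fv_rf h.co (((ContDiff.pow (by unfold De; fun_prop) 2).mul (sinv_sm.pow 3)).contDiffOn) a]
  change _ = evO ⟨x, a⟩ _
  simp only [map_mul, map_pow]
  change _ = fv _ x ^ 2 * fv _ x ^ 3
  rw [fv_De a, P354YK.fv_ri h.co a, sinv_eq (by linarith [(h.far a).1])]
  push_cast
  ring

theorem sh1 : ((cap E).p1 c).h1 = ((cap E).p2 c).h1 + 2 * ((cap E).K2 c).W * di E := by
  refine ext_fv h.co.op fun x a => ?_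
  have e1 : fv ((cap E).p1 c).h1 x = _ := (fv_rf h.co (hs_on h.M0 E.M E.a) a :)
  have e2 : fv ((cap E).p2 c).h1 x = _ := (fv_rf h.co (ho_on c.M) a :)
  have e3 : fv (2 * ((cap E).K2 c).W) x = (2 * (x.2.1 ^ 2 + E.a ^ 2) : ℝ) := by
    rw [← h.rf_W, fv_rf h.co (by fun_prop) a]
  rw [e1, fv_add, e2, fv_mul, e3, h.fv_di a, hs, (h.far a).2.2]
  push_cast
  ring

theorem sh2 : ((cap E).p1 c).j1 = ((cap E).p2 c).a * di E := ext_fv h.co.op fun x a => by
  rw [fv_mul, h.fv_di a, show fv ((cap E).p2 c).a x = _ from fv_a (c := c) a]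
  refine (fv_rf h.co (js_on h.M0 E.M E.a) a).trans ?_
  rw [js, (h.far a).2.2]
  push_cast
  ring

/-- The outgoing derivative. -/
theorem R_sh (f : Sm (on (O3 E))) : ((cap E).K2 c).R f = ((cap E).K1 c).R f +
    di E * (2 * ((cap E).K2 c).W * (hp _).d 0 f + 2 * ((cap E).K2 c).a * Om (hp _) 2 f) := by
  have a := kk_R (hp _) ((cap E).p1 c) f
  have b := kk_R (hp _) ((cap E).p2 c) f
  rw [h.sh1, h.sh2, F2_Om h.is] at a
  rw [show ((cap E).p2 c).j1 = 0 from rfl] at b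
  change ((cap E).K1 c).R f = _ - _ * (hp _).d 0 f - ((cap E).K2 c).a * _ * _ at a
  change ((cap E).K2 c).R f = _ - _ * (hp _).d 0 f - _ at b
  linear_combination b - a

/-- The components of the transverse frame. -/
theorem fc (a i : Fin 4) :
    ∑ b, P354FC.co (ge _ E.g) (cap E).F2 (fv4 (cap E).F1 a) b *
      (ko ((cap E).K2 c) b i + (cap E).d2 c (.inl (b, u4 i))) =
    ki ((cap E).K2 c) a i + (cap E).d1 c (.inl (a, u4 i)) + P354FC.sh ((cap E).K2 c) (di E) i *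
      (ki ((cap E).K2 c) a 1 + (cap E).d1 c (.inl (a, u4 1))) :=
  fc_alg (p := (cap E).p2 c) (p' := (cap E).p1 c) (F' := (cap E).F1) h.is h.geo h.eqs.w2 h.sh1
    h.sh2 rfl (kIO _ _ _ _).1 a i

theorem wy (b : Bool) : cond b (cap E).G1.P0 (cap E).G1.P4 = -wq (ps (cap E).G2)
    (fun k => cj (ps (cap E).G2 k)) (P354FC.co (ge _ E.g) (cap E).F2 (fv4 (cap E).F1 (cond b 0 1)))
    (P354FC.co (ge _ E.g) (cap E).F2 (fv4 (cap E).F1 (cond b 2 3))) := by
  cases b <;> exact congrArg Neg.neg (W_wq h.geo h.eqs.w2 _ _)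

end Ho

end Vale.Agent.P354FC
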