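import Vale.Agent.P354FC.Cls
import Vale.Agent.P354YK.Ref

/-!
The chain of the Bianchi identities in the outgoing gauge.
-/

noncomputable section

namespace Vale.Agent.P354FC

open Vale.Agent.P354XG Vale.Agent.P354XZ Vale.Agent.P354XR Vale.Agent.P354XI
open Vale.Agent.P354YK (Cmp Sz oth oep orh oth_ap sz_alg sz_ri sz_one sb_cst)

variable {A : Type} [CommRing A] [Algebra ℂ A] {C : Ch A} {K : KC A} {X : Cx C} {G : GHP A}
  {e : Fin 6 → A} {n m : ℕ} {k k' a : ℝ} {f g s : A}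

theorem L.wk (hC : C.Is) (h : L X k n f) (q : k' ≤ k) : L X k' n f :=
  (h.smul hC (P354YF.sy_one hC) (q.trans_eq (zero_add k).symm)).of (one_mul f).symm
theorem L.ms (hC : C.Is) (q : L X k n f) (h : Sz C a s) : L X (a + k) n (s * f) :=
  q.smul hC h.sy le_rfl
theorem Z.ms {e : ℕ} (hC : C.Is) (q : Z X e n f) (h : Sz C a s) : Z X e n (s * f) :=
  q.smul hC h.sy
theorem sz_num (hC : C.Is) (j : ℕ) [j.AtLeastTwo] : Sz C 0 (ofNat(j) : A) := by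
  simpa only [map_ofNat] using sz_alg hC (ofNat(j) : ℂ)

/-- The functions r - i a x, i a sb, and the field P - i a sb T. -/
def ze (K : KC A) : A := K.r - ii A * K.a * K.x
def be (K : KC A) : A := ii A * K.a * K.sb
def La (K : KC A) : Der A := K.V (-be K) 0 1 0 0 0

theorem La_ap (f : A) : La K f = K.P f - be K * K.T f := by rw [La, KC.V_ap]; ring
theorem oep_ap (f : A) : oep K f = K.z * La K f - be K * K.z * K.z * K.H f := by
  rw [oep, KC.V_ap, La_ap, be]; ring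
theorem R_La (h : K.Is) (f : A) : K.R (La K f) = La K (K.R f) := by
  simp only [La_ap, be, D_sub, D_mul, D_ii, h.R_a, h.R_sb, h.R_T, h.P_R]; ring
theorem La_r (h : K.Is) : La K K.r = 0 := by simp [La_ap, h.P_r, h.T_r]
theorem La_N (h : K.Is) : La K K.N = 0 := by simp [La_ap, h.P_N, h.T_N]
theorem R_ze (h : K.Is) : K.R (ze K) = 1 := by simp [ze, D_ii, h.R_r, h.R_a, h.R_x]

theorem D_P2 (h : K.Is) (D : Der A) (d : D K.M = 0) :
    D K.P2 = 6 * K.M * (K.z * K.z * (K.z * K.z)) * D (ze K) := by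
  simp only [KC.P2, D_neg, D_mul, D_num, d, KC.D_inv D h.z_ze, ze]; ring

theorem V_P2 (h : K.Is) (e0 e1 e2 e3 e4 e5 : A) : K.V e0 e1 e2 e3 e4 e5 K.P2 =
    6 * K.M * (K.z * K.z * (K.z * K.z)) * (e1 + be K * e2 + ii A * K.a * K.s * e3) := by
  rw [D_P2 h _ (h.V_M ..)]
  simp only [KC.V_ap, ze, be, D_sub, D_mul, D_ii, h.tab]; ring

section sym
variable (h : Cmp C K)
include h

theorem z_N : Sz C 0 K.N := h.N ▸ ⟨h.ch.D_N 0, sb_cst ⟨3 / 2, fun x => by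
  rw [P354YF.md_re h.ch h.ch.c_N]
  exact abs_le.2 ⟨by linarith [(h.ch.N_le x).1], (h.ch.N_le x).2⟩⟩ (P354YF.X_N h.ch)⟩

theorem z_Ni : Sz C 0 K.Ni := by
  have d : ∀ i, C.X i K.Ni = 0 := fun i => by
    rw [KC.D_inv _ h.kc.hN', ← h.N, P354YF.X_N h.ch, mul_zero, neg_zero]
  refine ⟨d 0, sb_cst ⟨2, fun x => ?_⟩ d⟩
  have := P354YF.md_mul (x := x) K.N K.Ni
  rw [h.kc.hN, P354YF.md_one, ← h.N, P354YF.md_re h.ch h.ch.c_N] at this
  nlinarith [(h.ch.N_le x).1, le_abs_self (C.val x C.N), P354YF.md0 (x := x) K.Ni]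

theorem z_be : Sz C 0 (be K) := (h.z_i.cmul h.ch h.z_a).cmul h.ch h.z_sb
theorem z_as : Sz C 0 (ii A * K.a * K.s) := (h.z_i.cmul h.ch h.z_a).cmul h.ch h.z_s
theorem z_ax : Sz C 0 (ii A * K.a * K.x) := (h.z_i.cmul h.ch h.z_a).cmul h.ch h.z_x
theorem z_ze : Sz C (-1) (ze K) := h.z_r.sub h.ch h.z_iax
theorem z_P2 : Sz C 3 K.P2 :=
  (((((sz_num h.ch 2).cmul h.ch h.z_M).cmul h.ch ((h.z_z.mul h.ch h.z_z).mul h.ch h.z_z)).neg
    h.ch).mono h.ch (by norm_num)).of (by rw [KC.P2]; ring)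

theorem L.RK (q : L X k (n + 1) f) : L X (1 + k) n (K.R f) := h.R ▸ q.R h.ch le_rfl
theorem Z.RK {e : ℕ} (q : Z X e (n + 1) f) : Z X e n (K.R f) := h.R ▸ q.R h.ch
theorem L.La (q : L X k (n + 1) f) : L X k n (La K f) :=
  ((q.an h.ch 0).sub (((q.der 0).ms h.ch (z_be h)).wk h.ch (zero_add k).ge)).of
    (by rw [La_ap, ← h.P, ← h.T]; rfl)

theorem Z.V (he : ∀ i, Z X 1 n (e i)) (q : Z X 1 (n + 1) f) {j : ℤ} (h1 : K.H f = j * f)
    (h2 : K.B f = 0) : Z X 2 n (K.V (e 0) (e 1) (e 2) (e 3) (e 4) (e 5) f) :=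
  ((((((he 0).mul (q.der 0) le_rfl).add ((he 1).mul (q.RK h) le_rfl)).add
    ((he 2).mul (q.an h.ch 0) le_rfl)).add ((he 3).mul (q.an h.ch 1) le_rfl)).add
    ((he 4).mul (q.dn.ms h.ch (sz_alg h.ch j)) le_rfl)).of (by
      rw [KC.V_ap, h1, h2, ← h.P, ← h.Q, ← h.T, map_intCast, mul_zero, add_zero]; rfl)

end sym

/-- A solution in the outgoing gauge with the classes of its components. -/
structure Gg (X : Cx C) (K : KC A) (G : GHP A) (e : Fin 6 → A) (n : ℕ) : Prop where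
  cmp : Cmp C K
  is : G.Is
  H : G.H = K.H
  B : G.Hb = K.B
  th : G.th = oth K
  ka : G.ka = 0
  ta : G.ta' = K.ta2
  ep : ∀ f, G.ep f = oep K f + K.V (e 0) (e 1) (e 2) (e 3) (e 4) (e 5) f
  p0 : L X 2 n G.P0
  p1 : L X 2 n G.P1
  p2 : L X 1 n (G.P2 - K.P2)
  p3 : L X 1 n G.P3
  p4 : L X 0 n G.P4
  si : L X 0 n G.si'
  rh : L X 0 n (G.rh - orh K)
  e1 : L X (-1) n (e 1)
  e2 : L X 0 n (e 2)
  e3 : L X 0 n (e 3)
  ez : ∀ i, Z X 1 n (e i)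

namespace Gg

theorem dn (h : Gg X K G e (n + 1)) : Gg X K G e n :=
  { h with
    p0 := h.p0.dn, p1 := h.p1.dn, p2 := h.p2.dn, p3 := h.p3.dn, p4 := h.p4.dn, si := h.si.dn
    rh := h.rh.dn, e1 := h.e1.dn, e2 := h.e2.dn, e3 := h.e3.dn, ez := fun i => (h.ez i).dn }

variable (h : Gg X K G e (n + 1))
include h

theorem th_ap (f : A) : G.th f = K.N * K.R f := by rw [h.th, oth_ap]
theorem ta_eq : G.ta' = -(be K * K.z * K.z) := by rw [h.ta, KC.ta2, be]; ring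

theorem HB : K.H G.P1 = (2 : ℤ) * G.P1 ∧ K.B G.P1 = 0 ∧ K.H (G.P2 - K.P2) = (0 : ℤ) * (G.P2 - K.P2) ∧
    K.B (G.P2 - K.P2) = 0 ∧ K.H G.P3 = (-2 : ℤ) * G.P3 ∧ K.B G.P3 = 0 := by
  have w := h.cmp.kc.wts.2.2.2.2.2.2.2.2
  have a : -G.H G.P3 = 2 * G.P3 := h.is.p.H_P1
  have b : -G.Hb G.P3 = 0 := h.is.p.Hb_P1
  simp only [D_sub, w.1, w.2.1]
  rw [← h.H, ← h.B, h.is.h.H_P1, h.is.h.Hb_P1, h.is.h.H_P2, h.is.h.Hb_P2]
  push_cast
  exact ⟨rfl, rfl, by ring, by ring, by linear_combination -a, neg_eq_zero.1 b⟩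

theorem E4 : L X 2 n (K.R (ze K * (K.N * (K.N * G.P4))) - La K (K.N * G.P3)) := by
  have c := h.cmp.ch
  have k := h.cmp.kc
  have d := h.dn
  have zn := (z_ze h.cmp).mul c (z_N h.cmp)
  have t1 := (((d.p3.ms c (z_N h.cmp)).ms c h.cmp.z_z).ms c (z_be h.cmp)).ms c (sz_num c 6)
  have t2 := (Z.V h.cmp d.ez (h.p3.sm c) h.HB.2.2.2.2.1 h.HB.2.2.2.2.2).ms c zn
  have t3 := ((d.si.ms c (z_P2 h.cmp)).ms c zn).ms c (sz_num c 3)
  have t4 := (((d.si.sm c).mul (d.p2.sm c) le_rfl).ms c zn).ms c (sz_num c 3)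
  have t5 := ((d.rh.sm c).mul (d.p4.sm c) le_rfl).ms c zn
  refine (((t1.wk c (by norm_num)).add (t3.wk c (by norm_num))).add
    (L.z ((t2.add t4).add t5))).of ?_
  have b := h.is.b4
  have z : K.z * ze K = 1 := k.z_ze
  rw [h.th_ap, h.ep, oep_ap, h.HB.2.2.2.2.1, h.ta_eq] at b
  simp only [D_mul, R_ze k, k.R_N, La_N k, orh]
  push_cast at b
  linear_combination ze K * K.N * b + (K.N * La K G.P3 + 6 * be K * K.z * K.N * G.P3 -
    K.N * K.N * G.P4) * z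

theorem E3 : L X 1 n (K.R (K.r * (K.r * (K.N * G.P3))) - La K (K.r * (G.P2 - K.P2))) := by
  have c := h.cmp.ch
  have k := h.cmp.kc
  have d := h.dn
  have r2 := h.cmp.z_r.mul c h.cmp.z_r
  have zz := h.cmp.z_z.mul c h.cmp.z_z
  have t1 := ((h.p2.La h.cmp).ms c h.cmp.z_zr).ms c r2
  have t2 := (((d.p3.ms c (z_N h.cmp)).ms c h.cmp.z_zr).ms c r2).ms c (sz_num c 2)
  have t3 := (((d.p2.ms c zz).ms c (z_be h.cmp)).ms c r2).ms c (sz_num c 3)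
  have t4 := ((((d.e1.add ((d.e2.ms c (z_be h.cmp)).wk c (by norm_num))).add
    ((d.e3.ms c (z_as h.cmp)).wk c (by norm_num))).ms c (zz.mul c zz)).ms c
      ((sz_num c 6).mul c h.cmp.z_M)).ms c r2
  have t5 := (Z.V h.cmp d.ez (h.p2.sm c) h.HB.2.2.1 h.HB.2.2.2.1).add
    ((((d.si.sm c).mul (d.p1.sm c) le_rfl).add ((d.rh.sm c).mul (d.p3.sm c) le_rfl)).ms c
      (sz_num c 2))
  refine ((((t1.wk c (by norm_num)).sub (t2.wk c (by norm_num))).add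
    ((t3.wk c (by norm_num)).add (t4.wk c (by norm_num)))).add (L.z (t5.ms c r2))).of ?_
  have b := h.is.h.b3
  have o : oep K K.P2 = 3 * K.ta2 * K.P2 := by
    have := (P354YK.out_is k).h.b3
    simp only [P354YK.out, D_zero] at this
    linear_combination -this
  have p : G.ep G.P2 = G.ep (G.P2 - K.P2) + G.ep K.P2 := by rw [D_sub, sub_add_cancel]
  rw [h.th_ap, p, h.ep, h.ep, o, V_P2 k, ← h.ta, oep_ap, h.HB.2.2.1, h.ta_eq, h.ka] at b
  simp only [D_mul, k.R_r, k.R_N, La_r k, orh]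
  push_cast at b
  linear_combination K.r * K.r * b + (K.r * La K (G.P2 - K.P2) - 2 * K.r * K.N * G.P3) * h.cmp.hr

theorem E2 : L X 0 n (K.R (K.r * (K.r * (K.r * (G.P2 - K.P2))))) := by
  have c := h.cmp.ch
  have k := h.cmp.kc
  have d := h.dn
  have r3 := (h.cmp.z_r.mul c h.cmp.z_r).mul c h.cmp.z_r
  have rn := r3.mul c (z_Ni h.cmp)
  have t1 := ((d.p2.ms c h.cmp.z_zr).ms c r3).ms c (sz_num c 3)
  have t2 := ((h.p1.La h.cmp).ms c h.cmp.z_z).ms c rn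
  have t3 := ((d.rh.ms c (z_P2 h.cmp)).ms c rn).ms c (sz_num c 3)
  have t4 := ((Z.V h.cmp d.ez (h.p1.sm c) h.HB.1 h.HB.2.1).add
    ((d.si.sm c).mul (d.p0.sm c) le_rfl)).add
      (((d.rh.sm c).mul (d.p2.sm c) le_rfl).ms c (sz_num c 3))
  refine ((((t2.wk c (by norm_num)).sub (t1.wk c (by norm_num))).add
    (t3.wk c (by norm_num))).add (L.z (t4.ms c rn))).of ?_
  have b := h.is.h.b2
  have o : K.R K.P2 = -(3 * K.z * K.P2) := by rw [D_P2 k _ k.R_M, R_ze k, KC.P2]; ring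
  rw [h.th_ap, h.ep, oep_ap, h.HB.1, h.ta_eq, h.ka] at b
  simp only [D_mul, D_sub, k.R_r, o, orh]
  push_cast at b
  linear_combination K.r * K.r * K.r * K.Ni * b - 3 * K.r * K.r * (G.P2 - K.P2) * h.cmp.hr -
    K.r * K.r * K.r * (K.R G.P2 + 3 * K.z * G.P2) * k.hN

end Gg

/-- The chain. -/
def o3 (K : KC A) (f : A) : A := K.R (K.r * K.r * K.R (K.r * K.r * K.R f))

theorem Z.o3 (h : Cmp C K) (q : Z X 2 (n + 3) f) : Z X 2 n (o3 K f) :=
  have r2 := h.z_r.mul h.ch h.z_r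
  (((((q.RK h).ms h.ch r2).RK h).ms h.ch r2).RK h)

theorem Gg.chain (h : Gg X K G e (n + 3)) :
    L X 0 n (o3 K (C.ri ^ 3 * (ze K ^ 4 * (K.N * (K.N * G.P4))))) := by
  have q := h.cmp
  have c := q.ch
  have k := q.kc
  have r2 := q.z_r.mul c q.z_r
  have er := (z_ax q).mul c (sz_ri c)
  obtain ⟨a4, h4⟩ : ∃ a4, a4 = ze K * (K.N * (K.N * G.P4)) := ⟨_, rfl⟩
  obtain ⟨a3, h3⟩ : ∃ a3, a3 = K.N * G.P3 := ⟨_, rfl⟩
  obtain ⟨a2, h2⟩ : ∃ a2, a2 = G.P2 - K.P2 := ⟨_, rfl⟩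
  obtain ⟨ε, hε⟩ : ∃ ε, ε = ii A * K.a * K.x := ⟨_, rfl⟩
  have e4 := h.E4
  have e3 := h.E3
  have e2 := h.E2
  have l4 := ((h.dn.p4.ms c (z_N q)).ms c (z_N q)).ms c (z_ze q)
  have l3 := (h.p3.ms c (z_N q)).La q
  have se := z_ax q
  rw [← h4] at e4 l4
  rw [← h3] at e4 e3 l3
  rw [← h2] at e3 e2
  rw [← hε] at er se
  have re : K.R ε = 0 := by simp [hε, D_ii, k.R_a, k.R_x]
  have ri : K.R C.ri = -(C.ri * C.ri) := by rw [P354YF.D_ri c, q.r, k.R_r, mul_one]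
  have ka : Sz C 0 (1 - ε * C.ri) := (sz_one c).sub c (er.mono c (by norm_num))
  have zk : ze K * C.ri = 1 - ε * C.ri := by rw [ze, ← hε]; linear_combination q.hr
  have w1 := (((((l4.ms c er).ms c (ka.add (sz_one c))).ms c se).ms c (sz_num c 3)).wk c
    (show (0 : ℝ) ≤ _ by norm_num)).neg.sub ((((l3.ms c er).ms c (((ka.cmul c ka).add ka).add
      (sz_one c))).ms c r2).wk c (by norm_num)) |>.add
    (((e4.ms c ((ka.cmul c ka).cmul c ka)).ms c r2).wk c (by norm_num))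
  obtain ⟨w, w1, u1⟩ : ∃ w, L X 0 (n + 2) w ∧
      K.r * K.r * K.R (C.ri ^ 3 * (ze K ^ 4 * (K.N * (K.N * G.P4)))) =
        3 * (ε * a4) + La K (K.r * (K.r * a3)) + w := by
    refine ⟨_, w1, ?_⟩
    rw [show C.ri ^ 3 * (ze K ^ 4 * (K.N * (K.N * G.P4))) = (ze K * C.ri) ^ 3 * a4 by
      rw [h4]; ring, zk]
    simp only [D_mul, D_cube, D_sub, D_one, re, ri, La_r k]
    linear_combination 3 * ε * a4 * (1 - ε * C.ri) ^ 2 * (K.r * C.ri + 1) * q.hr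
  have w2 := ((((w1.RK q).ms c r2).wk c (show (-1 : ℝ) ≤ _ by norm_num)).add
    ((((((l3.add (e4.wk c (by norm_num))).dn.ms c se).ms c (sz_num c 3)).ms c r2)).wk c
      (by norm_num))).add (((e3.La q).ms c r2).wk c (by norm_num))
  refine (((w2.RK q).wk c (by norm_num)).add ((e2.La q).La q)).of ?_
  rw [o3, u1, ← R_La k, ← R_La k, ← D_add]
  refine congrArg K.R ?_
  rw [D_add, D_add, R_La k]
  generalize K.R (K.r * (K.r * a3)) = y
  simp only [D_sub, D_num, D_mul, La_r k, re, mul_zero, add_zero]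
  ring

theorem Gg.two (h : Gg X K G e (n + 1)) :
    L X (-2) (n + 1) (K.De * (K.De * (K.Ni * (K.Ni * G.P0)))) := by
  have q := h.cmp
  have c := q.ch
  have d : Sz C (-2) K.De := (((q.z_r.mul c q.z_r).mono c (by norm_num)).sub c
    (((((sz_num c 2).cmul c q.z_M).cmul c q.z_r)).mono c (by norm_num))).add
    ((q.z_a.cmul c q.z_a).mono c (by norm_num))
  exact ((((h.p0.ms c (z_Ni q)).ms c (z_Ni q)).ms c d).ms c d).wk c (by norm_num)

end Vale.Agent.P354FC
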