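import Vale.Agent.P354YF.Sy
import Vale.Agent.P354YF.Jet

/-!
Classes of jets: bounded, small and quadratic terms on bounded radii, and linear terms with a
power of r and a constant which does not depend on the radius.
-/

open Filter Finset

noncomputable section

namespace Vale.Agent.P354FC

open Vale.Agent.P354XG (Der D_mul D_add D_sub D_zero D_neg D_one)
open Vale.Agent.P354XZ Vale.Agent.P354YF

variable {A : Type} [CommRing A] [Algebra ℂ A]

/-- The size d, the norm N and the filters of the points with r ≤ ρ and small size. -/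
structure Cx (C : Ch A) where
  F : ℝ → Filter C.Pt
  d : C.Pt → ℝ
  N : C.Pt → ℝ
  d0 : ∀ x, 0 ≤ d x
  N0 : ∀ x, 0 ≤ N x
  rad : ∀ ρ, ∀ᶠ x in F ρ, C.rr x ≤ ρ
  sml : ∀ ρ c, 0 < c → ∀ᶠ x in F ρ, d x ≤ c
  Nd : ∀ ρ, ∃ K, 0 ≤ K ∧ ∀ᶠ x in F ρ, N x ≤ K * d x

variable {C : Ch A} (X : Cx C)

/-- Terms of degree e. -/
def Z (e n : ℕ) (f : A) : Prop :=
  ∀ ρ, ∃ K, 0 ≤ K ∧ ∀ᶠ x in X.F ρ, C.jet n f x ≤ K * X.d x ^ e

/-- Linear terms of weight k, up to quadratic terms. -/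
def L (k : ℝ) (n : ℕ) (f : A) : Prop := ∃ B, 0 ≤ B ∧ ∀ ρ, ∃ K, 0 ≤ K ∧
  ∀ᶠ x in X.F ρ, C.jet n f x ≤ B * (C.rr x ^ (-k) * X.N x) + K * X.d x ^ 2

variable {X} {e e' e2 n n' : ℕ} {k k' a : ℝ} {f g s : A}

theorem Z.of (h : Z X e n f) (q : g = f) : Z X e n g := q ▸ h
theorem L.of (h : L X k n f) (q : g = f) : L X k n g := q ▸ h

theorem Z.le (h : Z X e n f) (q : ∀ x, C.jet n' g x ≤ C.jet n f x) : Z X e n' g := fun ρ =>
  let ⟨K, a, b⟩ := h ρ
  ⟨K, a, b.mono fun x c => (q x).trans c⟩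

theorem L.le (h : L X k n f) (q : ∀ x, C.jet n' g x ≤ C.jet n f x) : L X k n' g :=
  let ⟨B, a, b⟩ := h
  ⟨B, a, fun ρ => let ⟨K, c, d⟩ := b ρ; ⟨K, c, d.mono fun x u => (q x).trans u⟩⟩

theorem Z.zero : Z X e n 0 := fun _ =>
  ⟨0, le_rfl, .of_forall fun x => by rw [jet_null, zero_mul]⟩

theorem Z.add (h : Z X e n f) (h' : Z X e n g) : Z X e n (f + g) := fun ρ => by
  obtain ⟨K, a, b⟩ := h ρ
  obtain ⟨K', a', b'⟩ := h' ρ
  exact ⟨K + K', add_nonneg a a', (b.and b').mono fun x u => by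
    linarith [jet_add (x := x) n f g, u.1, u.2]⟩

theorem Z.neg (h : Z X e n f) : Z X e n (-f) := h.le fun _ => (jet_neg _ _).le
theorem Z.sub (h : Z X e n f) (h' : Z X e n g) : Z X e n (f - g) :=
  (h.add h'.neg).of (sub_eq_add_neg _ _)
theorem Z.dn (h : Z X e (n + 1) f) : Z X e n f := h.le fun _ => jet_mono n.le_succ f
theorem Z.ord (h : Z X e n f) (q : n' ≤ n) : Z X e n' f := h.le fun _ => jet_mono q f
theorem Z.der (h : Z X e (n + 1) f) (i : Fin 5) : Z X e n (C.X i f) :=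
  h.le fun _ => jet_der n i f
theorem Z.c (hC : C.Is) (h : Z X e n f) : Z X e n (C.c f) := h.le fun _ => (jet_c hC n f).le

theorem Z.sum {ι : Type} (t : Finset ι) {u : ι → A} (h : ∀ i ∈ t, Z X e n (u i)) :
    Z X e n (∑ i ∈ t, u i) := sum_induction u (Z X e n) (fun _ _ => Z.add) Z.zero h

theorem Z.deg (h : Z X e n f) (q : e' ≤ e) : Z X e' n f := fun ρ =>
  let ⟨K, a, b⟩ := h ρ
  ⟨K, a, (b.and (X.sml ρ 1 one_pos)).mono fun x u => u.1.trans
    (mul_le_mul_of_nonneg_left (pow_le_pow_of_le_one (X.d0 x) u.2 q) a)⟩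

theorem Z.mul (h : Z X e n f) (h' : Z X e' n g) (q : e2 ≤ e + e') : Z X e2 n (f * g) := by
  refine Z.deg (fun ρ => ?_) q
  obtain ⟨K, a, b⟩ := h ρ
  obtain ⟨K', a', b'⟩ := h' ρ
  refine ⟨2 ^ n * (K * K'), by positivity, (b.and b').mono fun x u =>
    (jet_mul_le n f g).trans ?_⟩
  rw [pow_add, mul_assoc, mul_mul_mul_comm]
  exact mul_le_mul_of_nonneg_left (mul_le_mul u.1 u.2 (jet0 ..) ((jet0 ..).trans u.1))
    (by positivity)

theorem rr_bd (hC : C.Is) (a ρ : ℝ) {x : C.Pt} (h : C.rr x ≤ ρ) : C.rr x ^ a ≤ |ρ| ^ |a| :=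
  (Real.rpow_le_rpow_of_exponent_le (one_le_rr hC x) (le_abs_self a)).trans
    (Real.rpow_le_rpow (rr_pos hC x).le (h.trans (le_abs_self ρ)) (abs_nonneg a))

theorem Z.sy (hC : C.Is) (h : C.Sy a s) : Z X 0 n s := fun ρ => by
  obtain ⟨K, b, c⟩ := sy_pos hC h n
  refine ⟨K * |ρ| ^ |-a|, by positivity, (X.rad ρ).mono fun x u => (c x).trans ?_⟩
  rw [pow_zero, mul_one]
  exact mul_le_mul_of_nonneg_left (rr_bd hC _ _ u) b

theorem Z.smul (hC : C.Is) (h : C.Sy a s) (q : Z X e n f) : Z X e n (s * f) :=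
  (Z.sy hC h).mul q (zero_add e).ge

/-- The solution of a small perturbation of the identity. -/
theorem Z.absorb {ι : Type} [Fintype ι] {y u : ι → A} {η : ι → ι → A} (hu : ∀ i, Z X 1 n (u i))
    (hη : ∀ i j, Z X 1 n (η i j)) (q : ∀ i, y i = u i + ∑ j, η i j * y j) (i : ι) :
    Z X 1 n (y i) := fun ρ => by
  choose K a b using fun i => hu i ρ
  choose M a' b' using fun i j => hη i j ρ
  have s0 : 0 ≤ ∑ i, ∑ j, M i j := sum_nonneg fun i _ => sum_nonneg fun j _ => a' i j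
  refine ⟨2 * ∑ i, K i, mul_nonneg zero_le_two (sum_nonneg fun i _ => a i), ?_⟩
  filter_upwards [eventually_all.2 b, eventually_all.2 fun i => eventually_all.2 (b' i),
    X.sml ρ (2 * (2 ^ n * ∑ i, ∑ j, M i j) + 1)⁻¹ (by positivity)] with x h1 h2 h3
  have d0 := X.d0 x
  have y0 : 0 ≤ ∑ i, C.jet n (y i) x := sum_nonneg fun _ _ => jet0 ..
  have h4 : ∀ i, C.jet n (y i) x ≤
      K i * X.d x + 2 ^ n * (∑ j, M i j) * X.d x * ∑ i, C.jet n (y i) x := fun i => by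
    refine ((congrArg (C.jet n · x) (q i)).trans_le (jet_add ..)).trans
      (add_le_add (by simpa using h1 i) ((jet_sum ..).trans ?_))
    simp only [mul_sum _ (M i), sum_mul]
    refine sum_le_sum fun j _ => (jet_mul_le ..).trans ?_
    have := mul_le_mul (h2 i j) (single_le_sum (f := fun i => C.jet n (y i) x)
      (fun _ _ => jet0 ..) (mem_univ j)) (jet0 ..) ((jet0 ..).trans (h2 i j))
    rw [pow_one] at this
    simpa only [mul_assoc] using mul_le_mul_of_nonneg_left this (pow_pos two_pos n).le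
  have h5 := sum_le_sum fun i (_ : i ∈ univ) => h4 i
  simp only [sum_add_distrib, ← sum_mul, ← mul_sum] at h5
  have h6 : X.d x * (2 * (2 ^ n * ∑ i, ∑ j, M i j) + 1) ≤ 1 := by
    rwa [← one_div, le_div_iff₀ (by positivity)] at h3
  refine (single_le_sum (f := fun i => C.jet n (y i) x) (fun _ _ => jet0 ..)
    (mem_univ i)).trans ?_
  rw [pow_one]
  nlinarith [mul_le_mul_of_nonneg_right h6 y0, mul_nonneg d0 y0]

theorem L.z (h : Z X 2 n f) : L X k n f :=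
  ⟨0, le_rfl, fun ρ => let ⟨K, a, b⟩ := h ρ; ⟨K, a, b.mono fun _ u => by simpa using u⟩⟩

theorem L.sm (hC : C.Is) (h : L X k n f) : Z X 1 n f := fun ρ => by
  obtain ⟨B, a, b⟩ := h
  obtain ⟨K, c, d⟩ := b ρ
  obtain ⟨M, m0, m⟩ := X.Nd ρ
  refine ⟨B * (|ρ| ^ |-k| * M) + K, by positivity, ?_⟩
  filter_upwards [d, m, X.rad ρ, X.sml ρ 1 one_pos] with x h1 h2 h3 h4
  have := mul_le_mul_of_nonneg_left (mul_le_mul (rr_bd hC (-k) ρ h3) h2 (X.N0 x) (by positivity)) a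
  nlinarith [mul_le_mul_of_nonneg_left (pow_le_pow_of_le_one (X.d0 x) h4 one_le_two) c]

theorem L.add (h : L X k n f) (h' : L X k n g) : L X k n (f + g) := by
  obtain ⟨B, a, b⟩ := h
  obtain ⟨B', a', b'⟩ := h'
  refine ⟨B + B', add_nonneg a a', fun ρ => ?_⟩
  obtain ⟨K, c, d⟩ := b ρ
  obtain ⟨K', c', d'⟩ := b' ρ
  exact ⟨K + K', add_nonneg c c', (d.and d').mono fun x u => by
    linarith [jet_add (x := x) n f g, u.1, u.2]⟩

theorem L.neg (h : L X k n f) : L X k n (-f) := h.le fun _ => (jet_neg _ _).le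
theorem L.sub (h : L X k n f) (h' : L X k n g) : L X k n (f - g) :=
  (h.add h'.neg).of (sub_eq_add_neg _ _)
theorem L.dn (h : L X k (n + 1) f) : L X k n f := h.le fun _ => jet_mono n.le_succ f
theorem L.ord (h : L X k n f) (q : n' ≤ n) : L X k n' f := h.le fun _ => jet_mono q f
theorem L.der (h : L X k (n + 1) f) (i : Fin 5) : L X k n (C.X i f) :=
  h.le fun _ => jet_der n i f
theorem L.c (hC : C.Is) (h : L X k n f) : L X k n (C.c f) := h.le fun _ => (jet_c hC n f).le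

theorem L.smul (hC : C.Is) (h : C.Sy a s) (q : L X k n f) (e : k' ≤ a + k) :
    L X k' n (s * f) := by
  obtain ⟨B, b0, b⟩ := q
  obtain ⟨M, m0, m⟩ := sy_jet hC (sy_mono hC (show k' - k ≤ a by linarith) h) n
  refine ⟨M * B, mul_nonneg m0 b0, fun ρ => ?_⟩
  obtain ⟨K, c, d⟩ := b ρ
  refine ⟨M * (|ρ| ^ |-(k' - k)| * K), by positivity, (d.and (X.rad ρ)).mono fun x u =>
    (m f x).trans ?_⟩
  have r0 := Real.rpow_nonneg (rr_pos hC x).le (-(k' - k))
  have := mul_le_mul_of_nonneg_left u.1 r0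
  rw [mul_add, mul_left_comm, ← mul_assoc (C.rr x ^ _), ← Real.rpow_add (rr_pos hC x),
    show -(k' - k) + -k = -k' by ring] at this
  have := this.trans (add_le_add le_rfl (mul_le_mul_of_nonneg_right (rr_bd hC _ _ u.2)
    (mul_nonneg c (sq_nonneg _))))
  nlinarith [mul_le_mul_of_nonneg_left this m0]

theorem Z.R (hC : C.Is) (h : Z X e (n + 1) f) : Z X e n (C.R f) :=
  ((h.der 1).smul hC (sy_ri hC)).of (R_eq hC f)

theorem L.R (hC : C.Is) (h : L X k (n + 1) f) (e : k' ≤ 1 + k) : L X k' n (C.R f) :=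
  ((h.der 1).smul hC (sy_ri hC) e).of (R_eq hC f)

theorem Z.an (hC : C.Is) (h : Z X e (n + 1) f) (i : Fin 3) : Z X e n (C.an i f) :=
  (Z.sum _ fun l _ => (h.der _).smul hC (sy_mu hC i l)).of (an_eq' hC i f)

theorem L.an (hC : C.Is) (h : L X k (n + 1) f) (i : Fin 3) : L X k n (C.an i f) := by
  have := fun l : Fin 3 => (h.der l.succ.succ).smul hC (sy_mu hC i l) (zero_add k).ge
  rw [an_eq' hC, Fin.sum_univ_three]
  exact ((this 0).add (this 1)).add (this 2)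

/-- The change of the letters. -/
theorem jet_qq (n : ℕ) (K : ℝ) : ∃ M, 0 ≤ M ∧ ∀ (x : C.Pt) (Y : Fin 5 → Der A)
    (κ : Fin 5 → Fin 5 → A), (∀ a f, C.X a f = ∑ b, κ a b * Y b f) →
    (∀ a b, C.jet n (κ a b) x ≤ K) → ∀ f y, 0 ≤ y → qq (C.B x.1) Y x.2 n f ≤ y ^ 2 →
      C.jet n f x ≤ M * y := by
  induction n with
  | zero => exact ⟨1, zero_le_one, fun x Y κ _ _ f y a b => by
      rw [jet_zero, one_mul]
      exact (abs_le_of_sq_le_sq' ((md_le_qq 0 f).trans b) a).2⟩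
  | succ n ih =>
    obtain ⟨M, m0, m⟩ := ih
    refine ⟨1 + 25 * (2 ^ n * (|K| * M)), by positivity, fun x Y κ h1 h2 f y a b => ?_⟩
    have h3 : ∀ a b, C.jet n (κ a b) x ≤ K := fun a b => (jet_mono n.le_succ _).trans (h2 a b)
    have h4 : ∀ i, C.jet n (C.X i f) x ≤ 5 * (2 ^ n * (|K| * M) * y) := fun i => by
      rw [h1]
      refine (jet_sum ..).trans ((sum_le_card_nsmul _ _ _ fun j _ => (jet_mul_le ..).trans
        (?_ : _ ≤ 2 ^ n * (|K| * M) * y)).trans (by simp))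
      rw [mul_assoc, mul_assoc]
      exact mul_le_mul_of_nonneg_left (mul_le_mul ((h3 i j).trans (le_abs_self K))
        (m x Y κ h1 h3 _ y a ((qq_der n j f).trans b)) (jet0 ..) (abs_nonneg K)) (by positivity)
    have h5 := sum_le_card_nsmul univ _ _ fun i _ => h4 i
    have h6 : C.md x f ≤ y := (abs_le_of_sq_le_sq' ((md_le_qq _ f).trans b) a).2
    rw [jet_succ]
    simp only [card_univ, Fintype.card_fin, nsmul_eq_mul, Nat.cast_ofNat] at h5
    linarith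

end Vale.Agent.P354FC
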