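import Vale.Agent.P354SI.Sl

/-!
The far density which bounds the bulk at bounded frequencies.
-/

open Set Filter

noncomputable section

namespace Vale.Agent.P354FC

open Vale.Agent.P354XG Vale.Agent.P354XD Vale.Agent.P354XR Vale.Agent.P354XI Vale.Agent.P354Z
open Vale.Agent.P354XT (up dn)
open Vale.Agent.P354YH (wt sm Sys)
open Vale.Agent.P354SI

/-- The letters T, r R and the rotations of the far chart. -/
def lr (c : Cs) (E : Est) : Fin 5 → Der (Sm (on E.O2)) :=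
  ![(hp _).d 0, (hp (on E.O2)).z 1 • (E.K2 c).R, Om (hp _) 0, Om (hp _) 1, Om (hp _) 2]

/-- The entries P0 P1 P2 P3 P4, sigma prime, rho and the components P Q R of eth; their powers
of r. -/
def ix : Fin 10 → (Fin 4 × Fin 6) ⊕ Fin 13 :=
  ![.inr 8, .inr 9, .inr 10, .inr 11, .inr 12, .inr 5, .inr 2, .inl (2, 2), .inl (2, 3),
    .inl (2, 1)]
def pw : Fin 10 → ℝ := ![2, 2, 1, 1, 0, 0, 0, 0, 0, -1]

/-- The far density of order n. -/
def FD (c : Cs) (E : Est) (n : ℕ) (x : E6) : ℝ :=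
  ∑ i, x.2.1 ^ (2 * pw i - 9 / 10) * q2 (lr c E) x n (E.d2 c (ix i))

/-- The far estimate; the constant B does not depend on the outer radius. -/
def FARQ (P : Pr) (G : ℕ → Filter (St P)) (Γ : ℕ → ℝ → St P → ℕ → ℝ) (n : ℕ) : Prop :=
  ∃ m R0 R1 B, P.c.R1 + 3 ≤ R0 ∧ 0 ≤ B ∧ ∀ Rc, ∃ R'' C, 0 ≤ C ∧
    ∀ᶠ σ in (sys P G Γ).F m, ∀ k ≤ σ.K,
      sm P.Q k (fun j => σ.sj j (fun r => up R0 (R0 + 1) r * dn (2 * Rc) (2 * Rc + 1) r)
        (FD σ.c σ.E n)) ≤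
      B * sm P.Q k ((sys P G Γ).B m R1 σ) + C * (σ.D + sm P.Q k ((sys P G Γ).hy m R'' σ))

/-- The row. -/
def FBX : Prop := ∀ (P : Pr) (G : ℕ → Filter (St P)) (Γ : ℕ → ℝ → St P → ℕ → ℝ), P.Ok →
  Antitone G → FARQ P G Γ (P.n0 + 6) → (sys P G Γ).FB

end Vale.Agent.P354FC
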