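import Vale.Agent.P354FC.Chain
import Vale.Agent.P354FC.Alg

/-!
The change from the transverse frame to the outgoing frame up to quadratic terms.
-/

open Finset

noncomputable section

namespace Vale.Agent.P354FC

open Vale.Agent.P354XG Vale.Agent.P354XZ Vale.Agent.P354XR Vale.Agent.P354YF
open Vale.Agent.P354XG.Geo (hf)
open Vale.Agent.P354YK (Cmp Sz sz_alg sz_ri sz_one)

variable {A : Type} [CommRing A] [Algebra ℂ A] {C : Ch A} {K : KC A} {X : Cx C} {G : GHP A}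
  {e n : ℕ} {f u v w Di : A} {p q : ℕ → A}

theorem Z.succ (h0 : Z X e 0 f) (h : ∀ a, Z X e n (C.X a f)) : Z X e (n + 1) f := fun ρ => by
  obtain ⟨K, a, b⟩ := h0 ρ
  choose M c d using fun i => h i ρ
  refine ⟨K + ∑ i, M i, add_nonneg a (sum_nonneg fun i _ => c i), ?_⟩
  filter_upwards [b, Filter.eventually_all.2 d] with x h1 h2
  rw [jet_succ, add_mul, sum_mul]
  exact add_le_add (jet_zero (x := x) f ▸ h1) (sum_le_sum fun i _ => h2 i)

theorem Z.inv (h : v * u = 1) (hu : ∀ n, Z X 0 n u) (hv : Z X 0 0 v) : ∀ n, Z X 0 n v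
  | 0 => hv
  | n + 1 => hv.succ fun a => (((Z.inv h hu hv n).mul (Z.inv h hu hv n) le_rfl).mul
      ((hu _).der a) le_rfl).neg.of (KC.D_inv _ h)

/-- The bounded terms. -/
def Z0 (X : Cx C) (hC : C.Is) (n : ℕ) : Subalgebra ℂ A where
  carrier := {f | Z X 0 n f}
  mul_mem' a b := Z.mul a b le_rfl
  add_mem' a b := Z.add a b
  algebraMap_mem' z := Z.sy hC (sy_alg hC z)

theorem Z.lm {hC : C.Is} (h : u ∈ Z0 X hC n) (q : Z X e n f) : Z X e n (u * f) :=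
  Z.mul h q (zero_add e).ge

theorem z0_in (h : Cmp C K) (X : Cx C) (n : ℕ) : K.In (Z0 X h.ch n) :=
  ⟨Z.sy h.ch h.z_r.sy, Z.sy h.ch h.z_x.sy, Z.sy h.ch h.z_s.sy, Z.sy h.ch h.z_sb.sy,
    Z.sy h.ch (z_N h).sy, Z.sy h.ch (z_Ni h).sy, Z.sy h.ch h.z_sg.sy, Z.sy h.ch h.z_a.sy,
    Z.sy h.ch h.z_M.sy⟩

theorem in_tab {S : Subalgebra ℂ A} (h : K.In S) (d : Di ∈ S) : (∀ b i, ko K b i ∈ S) ∧
    (∀ i, sh K Di i ∈ S) ∧ (∀ i, x0 K Di i ∈ S) ∧ (∀ b, K.Wi b ∈ S) ∧ K.De ∈ S ∧ ii A ∈ S := by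
  obtain ⟨h1, h2, h3, h4, h5, h6, h7, h8, h9⟩ := h
  have i : ii A ∈ S := S.algebraMap_mem _
  have t : (2 : A) ∈ S := ofNat_mem S 2
  refine ⟨fun b i => ?_, fun i => ?_, fun i => ?_, fun b => ?_, ?_, i⟩
  on_goal 1 => fin_cases b <;> fin_cases i
  on_goal 17 => fin_cases i
  on_goal 21 => fin_cases i
  on_goal 25 => cases b
  all_goals
    simp only [ko, sh, x0, KC.Wi, KC.De, KC.W, KC.z, KC.zb, cond, Fin.reduceFinMk, Matrix.cons_val]
    repeat' first | assumption | apply zero_mem | apply one_mem | apply neg_mem | apply mul_mem |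
      apply sub_mem | apply add_mem

theorem Z.iv (h : Cmp C K) {t : Fin 4 → A} (q : ∀ i, Z X e n (t i)) (b : Fin 4) :
    Z X e n (iv K t b) := by
  have m := z0_in h X n
  obtain ⟨k, -, -, -, -, i⟩ := in_tab m (one_mem _)
  obtain ⟨h1, h2, h3, h4, h5, h6, -, h8, -⟩ := m
  have a := mul_mem i h8
  have j : Z X e n (i1 K t) := Z.lm (mul_mem ((Z0 X h.ch n).algebraMap_mem _) h5)
    (((q 0).sub (Z.lm (mul_mem a h3) (q 3))).add (Z.lm (mul_mem a h4) (q 2)))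
  fin_cases b
  exacts [Z.lm h6 ((q 1).sub (Z.lm (k 1 1) j)), j,
    Z.lm (add_mem h1 (mul_mem a h2)) ((q 3).sub (Z.lm (k 1 3) j)),
    Z.lm (sub_mem h1 (mul_mem a h2)) ((q 2).sub (Z.lm (k 1 2) j))]

/-- The components x of the transverse frame in the outgoing frame. -/
structure Fc (X : Cx C) (K : KC A) (Di : A) (x D1 D2 : Fin 4 → Fin 4 → A) (n : ℕ) : Prop where
  cmp : Cmp C K
  hD : K.De * Di = 1
  bd : Z X 0 0 Di
  eq : ∀ a i, ∑ b, x a b * (ko K b i + D2 b i) =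
    ki K a i + D1 a i + sh K Di i * (ki K a 1 + D1 a 1)
  d1 : ∀ a i, Z X 1 n (D1 a i)
  d2 : ∀ a i, Z X 1 n (D2 a i)

variable {x D1 D2 : Fin 4 → Fin 4 → A}

theorem Fc.di (h : Fc X K Di x D1 D2 n) (m : ℕ) : Di ∈ Z0 X h.cmp.ch m :=
  Z.inv ((mul_comm _ _).trans h.hD) (fun m => (in_tab (z0_in h.cmp X m) (one_mem _)).2.2.2.2.1)
    h.bd m

theorem Fc.dx (h : Fc X K Di x D1 D2 n) (a b : Fin 4) :
    Z X 1 n (x a b - if b = a then x0 K Di a else 0) := by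
  obtain ⟨-, s, t, -⟩ := in_tab (z0_in h.cmp X n) (h.di n)
  refine Z.absorb (y := fun b => x a b - if b = a then x0 K Di a else 0)
    (u := iv K fun i => D1 a i + sh K Di i * D1 a 1 - x0 K Di a * D2 a i)
    (η := fun b c => -iv K (D2 c) b)
    (Z.iv h.cmp fun i => ((h.d1 a i).add (Z.lm (s i) (h.d1 a 1))).sub (Z.lm (t a) (h.d2 a i)))
    (fun b c => (Z.iv h.cmp (h.d2 c) b).neg) (fun b => ?_) b
  rw [← iv_lin]
  refine (congrFun (iv_ko h.cmp.kc fun b => x a b - if b = a then x0 K Di a else 0) b).symm.trans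
    (congrArg (iv K · b) (funext fun i => ?_))
  have := h.eq a i
  simp only [mul_add, sum_add_distrib, sub_mul, sum_sub_distrib, ite_mul, zero_mul, sum_ite_eq',
    mem_univ, if_true] at this ⊢
  linear_combination this + ki_ko h.cmp.kc h.hD a i

theorem wq_small {hC : C.Is} {x y : Fin 4 → A} (p2 : p 2 ∈ Z0 X hC n) (q2 : q 2 ∈ Z0 X hC n)
    (hp : ∀ k, k ≠ 2 → Z X 1 n (p k)) (hq : ∀ k, k ≠ 2 → Z X 1 n (q k)) (hw : w ∈ Z0 X hC n)
    (x0 : Z X 1 n (x 0 - w)) (x1 : Z X 1 n (x 1)) (x2 : Z X 1 n (x 2)) (x3 : Z X 1 n (x 3))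
    (y0 : Z X 1 n (y 0)) (y1 : Z X 1 n (y 1)) (y2 : Z X 1 n (y 2 - 1)) (y3 : Z X 1 n (y 3)) :
    Z X 2 n (-wq p q x y - w * w * p 0) := by
  have a : x 0 ∈ Z0 X hC n := (Z.add hw (x0.deg zero_le_one)).of (add_sub_cancel _ _).symm
  have b : y 2 ∈ Z0 X hC n :=
    (Z.add (one_mem (Z0 X hC n)) (y2.deg zero_le_one)).of (add_sub_cancel _ _).symm
  have t : (2 : A) ∈ Z0 X hC n := ofNat_mem _ 2
  have m : ∀ {f g}, Z X 1 n f → Z X 1 n g → Z X 2 n (f * g) := fun a b => a.mul b le_rfl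
  have m1 : ∀ {f g}, Z X 1 n f → Z X 1 n g → Z X 1 n (f * g) := fun a b => a.mul b one_le_two
  have r : ∀ {f}, Z X 1 n f → Z X 1 n (f * y 2) := fun a => a.mul b le_rfl
  have b01 : Z X 1 n (bv x y 0 1) := (Z.lm a y1).sub (m1 x1 y0)
  have b23 : Z X 1 n (bv x y 2 3) := (m1 x2 y3).sub (r x3)
  have b03 : Z X 1 n (bv x y 0 3) := (Z.lm a y3).sub (m1 x3 y0)
  have b12 : Z X 1 n (bv x y 1 2) := (r x1).sub (m1 x2 y1)
  have b13 : Z X 2 n (bv x y 1 3) := (m x1 y3).sub (m x3 y1)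
  have c13 := b13.deg one_le_two
  have b02 : bv x y 0 2 ∈ Z0 X hC n := Z.sub (mul_mem a b) ((m1 x2 y0).deg zero_le_one)
  have c02 : Z X 1 n (bv x y 0 2 - w) :=
    (((r x0).add (Z.lm hw y2)).sub (m1 x2 y0)).of (by rw [bv]; ring)
  have s := b01.sub b23
  have s' := b01.add b23
  refine ((((((((Z.lm p2 ((m s s).sub (Z.lm t (Z.lm b02 b13)))).add
    (Z.lm q2 ((m s' s').sub (Z.lm t (m b03 b12))))).add
    (Z.lm (add_mem b02 hw) (m c02 (hp 0 (by decide))))).add (m (hq 0 (by decide)) (m1 b03 b03))).add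
    (m (hq 4 (by decide)) (m1 b12 b12))).add (m (hp 4 (by decide)) (m1 c13 c13))).add
    (Z.lm t (m ((Z.lm b02 (hp 1 (by decide))).sub (m1 (hp 3 (by decide)) c13)) s))).add
    (Z.lm t (m ((m1 (hq 1 (by decide)) b03).sub (m1 (hq 3 (by decide)) b12)) s'))).of ?_
  rw [wq]; ring

variable {E : Fin 6 → A}

theorem Gg.ps (h : Gg X K G E n) : ps G 2 ∈ Z0 X h.cmp.ch n ∧ ∀ k, k ≠ 2 → Z X 1 n (ps G k) := by
  have c := h.cmp.ch
  refine ⟨(Z.add ((h.p2.sm c).deg zero_le_one) (Z.sy c (z_P2 h.cmp).sy)).of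
    (sub_add_cancel _ _).symm, fun k hk => ?_⟩
  match k with
  | 0 => exact h.p0.sm c
  | 1 => exact h.p1.sm c
  | 2 => exact (hk rfl).elim
  | 3 => exact h.p3.sm c
  | 4 => exact h.p4.sm c
  | k + 5 => exact Z.zero

theorem Fc.P0 (h : Fc X K Di x D1 D2 n) (g : Gg X K G E n) :
    Z X 2 n (K.Wi true * -wq (ps G) (fun k => C.c (ps G k)) (x 0) (x 2) -
      K.De * (K.De * (K.Ni * (K.Ni * G.P0)))) := by
  have c := h.cmp.ch
  obtain ⟨-, -, t, w, -⟩ := in_tab (z0_in h.cmp X n) (h.di n)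
  have y := h.dx
  refine (Z.lm (w true) (wq_small (q := fun k => C.c (ps G k)) (x := x 0) (y := x 2) g.ps.1
    (Z.c c g.ps.1) g.ps.2 (fun k a => (g.ps.2 k a).c c) (t 0) (y 0 0) ((y 0 1).of (by simp))
    ((y 0 2).of (by simp)) ((y 0 3).of (by simp)) ((y 2 0).of (by simp)) ((y 2 1).of (by simp))
    (y 2 2) ((y 2 3).of (by simp)))).of ?_
  simp only [KC.Wi, cond, x0, Matrix.cons_val, ps]
  linear_combination K.De * K.De * K.Ni * K.Ni * G.P0 *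
    (K.sg * (K.r * K.r + K.a * K.a * K.x * K.x) + 1) * h.cmp.kc.hg

theorem Fc.P4 (h : Fc X K Di x D1 D2 n) (g : Gg X K G E n) :
    Z X 2 n (K.De ^ 2 * (K.Wi false * -wq (ps G) (fun k => C.c (ps G k)) (x 1) (x 3)) -
      ze K ^ 4 * (K.N * (K.N * G.P4))) := by
  have c := h.cmp.ch
  obtain ⟨-, -, t, w, d, -⟩ := in_tab (z0_in h.cmp X n) (h.di n)
  have y := h.dx
  have u : ∀ k, k ≠ 2 → Z X 1 n (ps G (4 - k)) := fun k a => g.ps.2 _ (by omega)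
  have p2 : Z X 0 n (ps G (4 - 2)) := g.ps.1
  have q2 : C.c (ps G (4 - 2)) ∈ Z0 X c n := p2.c c
  have v := wq_small (p := fun k => ps G (4 - k))
    (q := fun k => C.c (ps G (4 - k))) (x := ![x 1 1, x 1 0, x 1 3, x 1 2])
    (y := ![x 3 1, x 3 0, x 3 3, x 3 2]) p2 q2 u (fun k a => (u k a).c c) (t 1) ((y 1 1).of (by simp))
    ((y 1 0).of (by simp)) ((y 1 3).of (by simp)) ((y 1 2).of (by simp)) ((y 3 1).of (by simp))
    ((y 3 0).of (by simp)) ((y 3 3).of (by simp [x0])) ((y 3 2).of (by simp))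
  rw [← wq_pr (ps G) fun k => C.c (ps G k)] at v
  refine (Z.lm (mul_mem (pow_mem d 2) (w false)) v).of ?_
  have s : K.zb * (K.r * K.r + K.a * K.a * K.x * K.x) = ze K := by
    rw [KC.zb, ze]; linear_combination (K.r - ii A * K.a * K.x) * h.cmp.kc.hg
  have e1 : K.Wi false = K.N * K.N * K.zb * K.zb * ze K * ze K := rfl
  have e2 : x0 K Di 1 = (K.r * K.r + K.a * K.a * K.x * K.x) * Di := rfl
  have e3 : ps G (4 - 0) = G.P4 := rfl
  rw [e1, e2, e3]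
  generalize K.r * K.r + K.a * K.a * K.x * K.x = σ at s
  linear_combination K.N * K.N * G.P4 * ze K ^ 2 * ((K.zb * σ) ^ 2 * (K.De * Di + 1) * h.hD +
    (K.zb * σ + ze K) * s)

/-- The two estimates. -/
theorem Fc.minus (h : Fc X K Di x D1 D2 (n + 3)) (g : Gg X K G E (n + 3)) : L X 0 n (o3 K
    (K.De ^ 2 * C.ri ^ 3 * (K.Wi false * -wq (ps G) (fun k => C.c (ps G k)) (x 1) (x 3)))) := by
  have c := h.cmp.ch
  refine (g.chain.add (L.z (Z.o3 h.cmp ((((h.P4 g).ms c (sz_ri c)).ms c (sz_ri c)).ms c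
    (sz_ri c))))).of ?_
  simp only [o3, ← D_add, ← mul_add]
  refine congrArg (fun u => K.R (K.r * K.r * K.R (K.r * K.r * K.R u))) ?_
  ring

theorem Fc.plus (h : Fc X K Di x D1 D2 (n + 1)) (g : Gg X K G E (n + 1)) :
    L X (-2) (n + 1) (K.Wi true * -wq (ps G) (fun k => C.c (ps G k)) (x 0) (x 2)) :=
  (g.two.add (L.z (h.P0 g))).of (add_sub_cancel _ _).symm

end Vale.Agent.P354FC
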