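import Vale.Agent.P354FC.Cap
import Vale.Agent.P354FC.Frc
import Vale.Agent.P354FC.Defs

/-!
The family of all restricted states, and the classes of its components.
-/

open Set Finset Topology
open Filter hiding pmap

noncomputable section

namespace Vale.Agent.P354FC

open Vale.Agent.P354XG Vale.Agent.P354XD Vale.Agent.P354XR Vale.Agent.P354XI Vale.Agent.P354Z
open Vale.Agent.P354YK (Fm out oth oet oep orh cm_V act_cm hpi ppi gpi dpi hpi_hom gpi_is cpi)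
open Vale.Agent.P354XZ (Ch)
open Vale.Agent.P354YF (jet0 jet_c rr_pos qq jet_one jet_null)
open Vale.Agent.P354SI (Pr St)

section alg
variable {A : Type} [CommRing A] [Algebra ℂ A]

theorem ep_eq {K : KC A} {G : GHP A} (k : K.Is) (g : G.Is) (hc : G.c = K.c) {d : Fin 6 → A}
    (e : ∀ f, G.et f = oet K f + K.V (d 0) (d 1) (d 2) (d 3) (d 4) (d 5) f) (f : A) :
    G.ep f = oep K f +
      K.V (K.c (d 0)) (K.c (d 1)) (K.c (d 3)) (K.c (d 2)) (K.c (d 5)) (K.c (d 4)) f := by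
  have := g.h.c_et (K.c f)
  rwa [hc, k.cc, e, map_add, P354YK.c_et k, k.c_V, k.cc, eq_comm] at this

theorem et_d {K : Hp A} {p : Pm A} {g : Fin 4 → Fin 4 → A} {Γ : Fin 4 → Fin 4 → Fin 4 → A}
    {F : Fr A} (h : K.Is) {d : Fin 6 → A} (e : ∀ i, d i = dat K p (F.ghp (K.geo g Γ)) (.inl (2, i)) -
      dat K p (out (kk K p)) (.inl (2, i))) (f : A) : (F.ghp (K.geo g Γ)).et f =
      oet (kk K p) f + (kk K p).V (d 0) (d 1) (d 2) (d 3) (d 4) (d 5) f := by
  have a : ∀ i, d i = cm K p (F.ghp (K.geo g Γ)).et i - cm K p (oet (kk K p)) i := e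
  rw [act_cm (p := p) h _ (D := (F.ghp (K.geo g Γ)).et) rfl]
  simp only [a, oet, cm_V h, KC.V_ap, Matrix.cons_val]
  ring

omit [Algebra ℂ A] in
theorem rg (r R d W T a O : A) : r * (R + d * (2 * W * T + 2 * a * O)) =
    r * (d * (2 * W)) * T + r * R + r * (d * (2 * a)) * O := by ring

/-- The filters of small size. -/
def cx (C : Ch A) (d N : C.Pt → ℝ) (d0 : ∀ x, 0 ≤ d x) (N0 : ∀ x, 0 ≤ N x)
    (Nd : ∀ ρ, ∃ K, 0 ≤ K ∧ ∀ x, C.rr x ≤ ρ → N x ≤ K * d x) : Cx C where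
  F ρ := 𝓟 {x | C.rr x ≤ ρ} ⊓ comap d (𝓝 0)
  d := d
  N := N
  d0 := d0
  N0 := N0
  rad _ := mem_inf_of_left (mem_principal_self _)
  sml _ _ h := mem_inf_of_right (preimage_mem_comap (Iic_mem_nhds h))
  Nd ρ := let ⟨K, a, b⟩ := Nd ρ; ⟨K, a, mem_inf_of_left fun x hx => b x hx⟩

omit [CommRing A] [Algebra ℂ A] in
theorem ev_cx {α : Type} {s : Set α} {d : α → ℝ} {p : α → Prop} (d0 : ∀ x, 0 ≤ d x)
    (h : ∀ᶠ x in 𝓟 s ⊓ comap d (𝓝 0), p x) : ∃ δ, 0 < δ ∧ ∀ x ∈ s, d x ≤ δ → p x := by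
  rw [inf_comm, eventually_inf_principal, eventually_comap, Metric.eventually_nhds_iff] at h
  obtain ⟨δ, a, b⟩ := h
  exact ⟨δ / 2, half_pos a, fun x hx e => b (by
    rw [Real.dist_eq, sub_zero, abs_of_nonneg (d0 x)]; linarith) x rfl hx⟩

end alg

section pi
variable {J : Type} {A : J → Type} [∀ j, CommRing (A j)] [∀ j, Algebra ℂ (A j)]
  (K : ∀ j, Hp (A j)) (p : ∀ j, Pm (A j)) (j : J)

theorem ko_pi (b i : Fin 4) : ko (kk (hpi K) (ppi p)) b i j = ko (kk (K j) (p j)) b i := by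
  fin_cases b <;> fin_cases i <;> rfl
theorem ki_pi (b i : Fin 4) : ki (kk (hpi K) (ppi p)) b i j = ki (kk (K j) (p j)) b i := by
  fin_cases b <;> fin_cases i <;> rfl
theorem sh_pi (D : ∀ j, A j) (i : Fin 4) :
    sh (kk (hpi K) (ppi p)) D i j = sh (kk (K j) (p j)) (D j) i := by fin_cases i <;> rfl
theorem Wi_pi (b : Bool) : (kk (hpi K) (ppi p)).Wi b j = (kk (K j) (p j)).Wi b := by
  cases b <;> rfl
theorem gen_pi : (kk (hpi K) (ppi p)).De j = (kk (K j) (p j)).De ∧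
    (kk (hpi K) (ppi p)).P2 j = (kk (K j) (p j)).P2 ∧
    orh (kk (hpi K) (ppi p)) j = orh (kk (K j) (p j)) ∧
    (kk (hpi K) (ppi p)).ta2 j = (kk (K j) (p j)).ta2 ∧
    (kk (hpi K) (ppi p)).W j = (kk (K j) (p j)).W := ⟨rfl, rfl, rfl, rfl, rfl⟩
theorem oet_pi (f : ∀ j, A j) : oet (kk (hpi K) (ppi p)) f j = oet (kk (K j) (p j)) (f j) :=
  (out_hom (hpi_hom K j) (ppi p)).et f
theorem wq_pi (G : ∀ j, GHP (A j)) (c : ∀ j, A j →+* A j) (x y : Fin 4 → ∀ j, A j) :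
    wq (ps (gpi G)) (fun k => cpi c (ps (gpi G) k)) x y j =
      wq (ps (G j)) (fun k => c j (ps (G j) k)) (fun i => x i j) fun i => y i j := rfl

end pi

theorem ho {P : Pr} (σ : St P) : Ho σ.c σ.E := ⟨σ.ok, σ.is.shape, σ.is.eqs⟩

/-- The family. -/
def fam (P : Pr) : Fm := ⟨St P, P.c.M, St.c, fun σ => cap σ.E, fun _ => 1, fun _ => 1⟩

variable {P : Pr}

theorem fok : (fam P).Ok :=
  ⟨fun _ => rfl, fun σ => (ho σ).co, fun σ => (ho σ).eqs, fun _ => ⟨le_rfl, le_rfl⟩⟩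

variable (P)

/-- The chart, the differences to Kerr, the inverse of Delta, the change of frame. -/
abbrev ch : Ch (fam P).A := (fok (P := P)).ch
def D1 (i : (Fin 4 × Fin 6) ⊕ Fin 13) : (fam P).A := fun σ => (cap σ.E).d1 σ.c i
def D2 (i : (Fin 4 × Fin 6) ⊕ Fin 13) : (fam P).A := fun σ => (cap σ.E).d2 σ.c i
def DI : (fam P).A := fun σ => di σ.E
def xx (a b : Fin 4) : (fam P).A :=
  fun σ => co (ge _ σ.E.g) (cap σ.E).F2 (fv4 (cap σ.E).F1 a) b
def ee : Fin 6 → (fam P).A := fun i => (fam P).kc.c (D2 P (.inl (2, ![0, 1, 3, 2, 5, 4] i)))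

/-- The size and the norm. -/
def dd (n : ℕ) (x : (ch P).Pt) : ℝ :=
  ∑ i, (ch P).jet n (D1 P i) x + ∑ i, (ch P).jet n (D2 P i) x
def NN (n : ℕ) (x : (ch P).Pt) : ℝ := ∑ i, (ch P).rr x ^ pw i * (ch P).jet n (D2 P (ix i)) x

variable {P} {n : ℕ}

theorem dd0 (x : (ch P).Pt) : 0 ≤ dd P n x :=
  add_nonneg (sum_nonneg fun _ _ => jet0 ..) (sum_nonneg fun _ _ => jet0 ..)

theorem le_dd (i) (x : (ch P).Pt) :
    (ch P).jet n (D1 P i) x ≤ dd P n x ∧ (ch P).jet n (D2 P i) x ≤ dd P n x :=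
  ⟨(single_le_sum (f := fun i => (ch P).jet n (D1 P i) x) (fun _ _ => jet0 ..) (Finset.mem_univ i)).trans
    (le_add_of_nonneg_right (sum_nonneg fun _ _ => jet0 ..)),
  (single_le_sum (f := fun i => (ch P).jet n (D2 P i) x) (fun _ _ => jet0 ..) (Finset.mem_univ i)).trans
    (le_add_of_nonneg_left (sum_nonneg fun _ _ => jet0 ..))⟩

theorem NN_nn (x : (ch P).Pt) (i) : 0 ≤ (ch P).rr x ^ pw i * (ch P).jet n (D2 P (ix i)) x :=
  mul_nonneg (Real.rpow_nonneg (rr_pos fok.is x).le _) (jet0 ..)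

variable (P n)

/-- The filters. -/
def XX : Cx (ch P) := cx _ (dd P n) (NN P n) dd0 (fun x => sum_nonneg fun i _ => NN_nn x i)
  fun ρ => ⟨∑ i, |ρ| ^ |pw i|, by positivity, fun x hx => by
    rw [sum_mul]
    exact sum_le_sum fun i _ => mul_le_mul (rr_bd fok.is _ _ hx) (le_dd _ x).2 (jet0 ..)
      (by positivity)⟩

variable {P n}

theorem z1 (i) : Z (XX P n) 1 n (D1 P i) ∧ Z (XX P n) 1 n (D2 P i) :=
  ⟨fun _ => ⟨1, zero_le_one, .of_forall fun x => (le_dd i x).1.trans_eq (by simp [XX, cx])⟩,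
    fun _ => ⟨1, zero_le_one, .of_forall fun x => (le_dd i x).2.trans_eq (by simp [XX, cx])⟩⟩

theorem l1 (i) : L (XX P n) (pw i) n (D2 P (ix i)) :=
  ⟨1, zero_le_one, fun _ => ⟨0, le_rfl, .of_forall fun x => by
    have r := rr_pos fok.is x
    have := mul_le_mul_of_nonneg_left (single_le_sum (fun i _ => NN_nn (n := n) x i) (Finset.mem_univ i))
      (Real.rpow_nonneg r.le (-pw i))
    rw [← mul_assoc, ← Real.rpow_add r, neg_add_cancel, Real.rpow_zero, one_mul] at this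
    rw [one_mul, zero_mul, add_zero]
    exact this⟩⟩

theorem gc : (fam P).G.c = (fam P).kc.c :=
  congrArg cpi (funext fun j => (fok.og j).cHB.1)

theorem gg : Gg (XX P n) (fam P).kc (fam P).G (ee P) n := by
  have a : ∀ {D D' : Der (fam P).A}, (∀ f j, D f j = D' f j) → D = D' := fun e =>
    Derivation.ext fun f => funext (e f)
  have h := fok (P := P)
  have g := gpi_is fun j => (h.og j).ghp_is
  have c : ∀ {k f}, L (XX P n) k n f → L (XX P n) k n ((fam P).kc.c f) := fun q => q.c h.is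
  refine ⟨h.cmp, g, a fun f j => ?_, a fun f j => ?_, a fun f j => ?_,
    funext fun j => (h.eqs j).ka, funext fun j => (h.eqs j).ta,
    ep_eq h.cmp.kc g gc (d := fun i => D2 P (.inl (2, i))) fun f => funext fun j => ?_,
    (l1 0).of (funext fun _ => (sub_zero _).symm), (l1 1).of (funext fun _ => (sub_zero _).symm),
    l1 2, (l1 3).of (funext fun _ => (sub_zero _).symm),
    (l1 4).of (funext fun _ => (sub_zero _).symm), (l1 5).of (funext fun _ => (sub_zero _).symm),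
    l1 6, c (l1 9), c (l1 8), c (l1 7), fun i => (z1 _).2.c h.is⟩
  · rw [Fm.H_ap, ← (h.og j).cHB.2.1]; rfl
  · rw [Fm.B_ap, ← (h.og j).cHB.2.2]; rfl
  · rw [oth, Fm.V_ap]
    exact DFunLike.congr_fun (h.eqs j).th (f j)
  · rw [Pi.add_apply, Fm.V_ap, Fm.kc, Fm.hK, Fm.pm, oet_pi]
    exact et_d (ho j).is (fun _ => rfl) (f j)

theorem z_DI (X : Cx (ch P)) : Z X 0 0 (DI P) := fun _ =>
  ⟨1, zero_le_one, .of_forall fun x => by
    have m := (fok.pt_mem x).1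
    have d := ((ho x.1).far m).2.1
    rw [P354YF.jet_zero, fok.md_eq, pow_zero, mul_one]
    refine (congrArg norm ((ho x.1).fv_di m)).trans_le ?_
    rw [norm_inv, Complex.norm_real, Real.norm_of_nonneg (zero_le_one.trans d)]
    exact inv_le_one_of_one_le₀ d⟩

theorem hDI : (fam P).kc.De * DI P = 1 := funext fun σ => (ho σ).hD

theorem fc : Fc (XX P n) (fam P).kc (DI P) (xx P) (fun a i => D1 P (.inl (a, u4 i)))
    (fun a i => D2 P (.inl (a, u4 i))) n :=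
  ⟨fok.cmp, hDI, z_DI _, fun a i => funext fun σ => by
    simp only [Finset.sum_apply, Pi.mul_apply, Pi.add_apply, Fm.kc, Fm.hK, Fm.pm, ko_pi, ki_pi,
      sh_pi]
    exact (ho σ).fc a i, fun _ _ => (z1 _).1, fun _ _ => (z1 _).2⟩

/-! ### The jets in terms of sums of squares -/

theorem qq_q2 {Y : Fin 5 → Der (fam P).A} {x : (ch P).Pt} {W : Fin 5 → Der (Sm (on (O3 x.1.E)))}
    (e : ∀ a f, Y a f x.1 = W a (f x.1)) :
    ∀ n f, qq ((ch P).B x.1) Y x.2 n f = q2 W (fok.pt x) n (f x.1)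
  | 0, _ => rfl
  | n + 1, f => by simp only [qq, q2, qq_q2 e n, e]

theorem lr_hom {c : Cs} {E : Est} (h : Ho c E) (a : Fin 5) (f) :
    r2 E (lr c E a f) = lr c (cap E) a (r2 E f) := by
  fin_cases a
  · exact h.h2.d 0 f
  · exact (map_mul _ _ _).trans (congrArg₂ (· * ·) (h.h2.z 1)
      ((R_hom h.h2 _ f).trans (congrArg (fun p => (kk _ p).R _) h.p2)))
  exacts [P354YK.hhom_Om h.h2 0 f, P354YK.hhom_Om h.h2 1 f, P354YK.hhom_Om h.h2 2 f]

theorem NN_le (n : ℕ) : ∃ B, 0 ≤ B ∧ ∀ x : (ch P).Pt,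
    (ch P).rr x ^ (-(9 / 10) : ℝ) * NN P n x ^ 2 ≤ B * FD x.1.c x.1.E n (fok.pt x) := by
  obtain ⟨M, m0, m⟩ := jet_qq (C := ch P) n 1
  refine ⟨10 * M ^ 2, by positivity, fun x => ?_⟩
  have r := rr_pos fok.is x
  have s := sq_sum_le_card_mul_sum_sq (s := univ)
    (f := fun i => (ch P).rr x ^ pw i * (ch P).jet n (D2 P (ix i)) x)
  refine (mul_le_mul_of_nonneg_left s (Real.rpow_nonneg r.le _)).trans ?_
  rw [mul_left_comm, mul_assoc 10, FD, mul_sum _ _ (M ^ 2), mul_sum _ _ (_ ^ _), card_univ,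
    Fintype.card_fin, Nat.cast_ofNat]
  refine mul_le_mul_of_nonneg_left (sum_le_sum fun i _ => ?_) (by norm_num)
  have q := P354BO.q2_nonneg (lr x.1.c x.1.E) (fok.pt x) n (x.1.E.d2 x.1.c (ix i))
  have j := m x (ch P).X (fun a b => if a = b then 1 else 0) (fun a f => by simp)
    (fun a b => by split_ifs; exacts [(jet_one n).le, (jet_null n).trans_le zero_le_one])
    (D2 P (ix i)) _ (Real.sqrt_nonneg _) (by
      rw [Real.sq_sqrt q, qq_q2 (W := lr x.1.c (cap x.1.E)) fun a f => fok.X_ap a f x.1,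
        show D2 P (ix i) x.1 = (cap x.1.E).d2 x.1.c (ix i) from rfl, ← (ho x.1).d2,
        P354BO.q2_map _ _ (lr_hom (ho x.1)) fun f => fv_rs _ f (fok.pt_mem x).1])
  have k := pow_le_pow_left₀ (jet0 ..) j 2
  rw [mul_pow, Real.sq_sqrt q] at k
  rw [mul_pow, ← mul_assoc, ← Real.rpow_natCast, ← Real.rpow_mul r.le, ← Real.rpow_add r,
    ← fok.rr_eq, mul_left_comm, show -(9 / 10) + pw i * (2 : ℕ) = 2 * pw i - 9 / 10 by
      push_cast; ring]
  exact mul_le_mul_of_nonneg_left k (Real.rpow_nonneg r.le _)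

/-- The change of the letters. -/
theorem jet_lt {Y : Fin 5 → Der (fam P).A} {κ : Fin 5 → Fin 5 → (fam P).A}
    (e : ∀ a f, (ch P).X a f = ∑ b, κ a b * Y b f) (n : ℕ) (ρ : ℝ)
    (z : ∀ X : Cx (ch P), ∀ a b, κ a b ∈ Z0 X fok.is n) : ∃ M, 0 ≤ M ∧ ∀ x, (ch P).rr x ≤ ρ →
      ∀ f y, 0 ≤ y → qq ((ch P).B x.1) Y x.2 n f ≤ y ^ 2 → (ch P).jet n f x ≤ M * y := by
  choose K a b using fun i j => z (cx _ 0 0 (fun _ => le_rfl) (fun _ => le_rfl)
    fun _ => ⟨0, le_rfl, fun _ _ => by simp⟩) i j ρ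
  choose δ c d using fun i j => ev_cx (fun _ => le_rfl) (b i j)
  obtain ⟨M, m0, m⟩ := jet_qq (C := ch P) n (∑ i, ∑ j, K i j)
  refine ⟨M, m0, fun x hx => m x Y κ e fun i j => (d i j x hx (c i j).le).trans ?_⟩
  rw [pow_zero, mul_one]
  exact (single_le_sum (f := K i) (fun j _ => a i j) (Finset.mem_univ j)).trans (single_le_sum
    (f := fun i => ∑ j, K i j) (fun i _ => sum_nonneg fun j _ => a i j) (Finset.mem_univ i))

theorem dd_le (n : ℕ) (ρ : ℝ) : ∃ M, 0 ≤ M ∧ ∀ x : (ch P).Pt, (ch P).rr x ≤ ρ → ∀ y, 0 ≤ y →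
    (∀ i, q2 (lt (hp _) (x.1.E.p1 x.1.c)) (fok.pt x) n (x.1.E.d1 x.1.c i) ≤ y ^ 2 ∧
      q2 (lt (hp _) (x.1.E.p2 x.1.c)) (fok.pt x) n (x.1.E.d2 x.1.c i) ≤ y ^ 2) →
    dd P n x ≤ M * y := by
  let K := (fam P).kc
  obtain ⟨M1, a1, b1⟩ := jet_lt (Y := fun b => dpi fun σ => lt (hp _) ((cap σ.E).p1 σ.c) b)
    (κ := ![![1, 0, 0, 0, 0], ![K.r * (DI P * (2 * K.W)), K.r, 0, 0, K.r * (DI P * (2 * K.a))],
      ![0, 0, 1, 0, 0], ![0, 0, 0, 1, 0], ![0, 0, 0, 0, 1]]) (fun a f => funext fun σ => by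
      rw [fok.X_ap]
      fin_cases a <;> simp only [Fin.sum_univ_five, Fin.reduceFinMk, Matrix.cons_val, one_mul,
        zero_mul, add_zero, zero_add]
      any_goals rfl
      exact (congrArg (_ * ·) ((ho σ).R_sh (f σ))).trans (rg ..)) n ρ fun X a b => by
      have m := z0_in fok.cmp X n
      have d : DI P ∈ Z0 X fok.is n := Z.inv ((mul_comm _ _).trans hDI)
        (fun m => (in_tab (z0_in fok.cmp X m) (one_mem _)).2.2.2.2.1) (z_DI X) n
      have t : (2 : (fam P).A) ∈ Z0 X fok.is n := ofNat_mem _ 2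
      have w := mul_mem m.1 (mul_mem d (mul_mem t (add_mem (mul_mem m.1 m.1)
        (mul_mem m.2.2.2.2.2.2.2.1 m.2.2.2.2.2.2.2.1))))
      have w' := mul_mem m.1 (mul_mem d (mul_mem t m.2.2.2.2.2.2.2.1))
      fin_cases a <;> fin_cases b <;>
        first | exact one_mem _ | exact zero_mem _ | exact w | exact w' | exact m.1
  obtain ⟨M2, a2, b2⟩ := jet_lt (Y := fun b => dpi fun σ => lt (hp _) ((cap σ.E).p2 σ.c) b)
    (κ := fun a b => if a = b then if a = 1 then K.r else 1 else 0) (fun a f => funext fun σ => by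
      rw [fok.X_ap]
      simp only [ite_mul, zero_mul, sum_ite_eq, Finset.mem_univ, if_true, one_mul]
      fin_cases a <;> rfl) n ρ fun X a b => by
      split_ifs
      exacts [(z0_in fok.cmp X n).1, one_mem _, zero_mem _]
  refine ⟨37 * (M1 + M2), by positivity, fun x hx y y0 h => ?_⟩
  have m := (fok.pt_mem x).1
  have e1 := sum_le_card_nsmul univ _ _ fun i _ => b1 x hx (D1 P i) y y0 (by
    rw [qq_q2 (W := lt (hp _) ((cap x.1.E).p1 x.1.c)) fun _ _ => rfl,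
      show D1 P i x.1 = (cap x.1.E).d1 x.1.c i from rfl, ← (ho x.1).d1, ← (ho x.1).p1,
      P354BO.q2_map _ _ (lt_hom (ho x.1).h1 _) fun f => fv_rs _ f m]
    exact (h i).1)
  have e2 := sum_le_card_nsmul univ _ _ fun i _ => b2 x hx (D2 P i) y y0 (by
    rw [qq_q2 (W := lt (hp _) ((cap x.1.E).p2 x.1.c)) fun _ _ => rfl,
      show D2 P i x.1 = (cap x.1.E).d2 x.1.c i from rfl, ← (ho x.1).d2, ← (ho x.1).p2,
      P354BO.q2_map _ _ (lt_hom (ho x.1).h2 _) fun f => fv_rs _ f m]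
    exact (h i).2)
  simp only [card_univ, Fintype.card_sum, Fintype.card_prod, Fintype.card_fin, nsmul_eq_mul] at e1 e2
  push_cast at e1 e2
  rw [dd]
  linarith

end Vale.Agent.P354FC
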