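import Vale.Agent.P354DT.Laym
import Vale.Agent.P354F2.Parts2
import Vale.Agent.P354XA.Cmp
import Vale.Agent.P354YO.OutA1

/-!
JWL: the metric of the collar in the chart of the estimates, uniformly in the primitives.
-/

set_option maxSynthPendingDepth 3

open scoped ContDiff
open Set Filter Topology

noncomputable section

namespace Vale.Agent.P354FC

open Vale.Agent.P354n (R4)
open Vale.Agent.P354XE (Tw gin rd eT dr Om pb Bd)
open Vale.Agent.P354XA (ip rd_cd rd_fd dr_eq rd_cont gin_bil)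
open Vale.Agent.P354XM (rot rot_ap hin_sh hin_ap)
open Vale.Agent.P354YI
open Vale.Agent.P354YO (sh IsTh Sb pr0 shell_cpt tb_ap bil_sub rd_sh sb_gin)
open Vale.Agent.P354YQ (Sy ri ri_nn it_sc rd_sm Om_sm Om_cd r_pos r_one r_ri r_sc sy_sm)
open Vale.Agent.P354EF (sh_fd th_cd)
open Vale.Agent.P354MG (kE)
open Vale.Agent.P354DT (oj_par oj_rot far_fd far_kE z_om z_dr z_lam z_kk)

theorem laymU {M a R : ℝ} (n : ℕ) (h : |a| < M) (hR : 6 * M + 1 ≤ R) :
    ∃ C ≥ 0, ∀ (g : Tw) A B M' a' A' B' q d, IsTh M M a A B → IsTh M M' a' A' B' →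
      |M' - M| + |a' - a| ≤ M / 2 → R ≤ rd q → 0 ≤ d → Sb g (sh A B q) →
      Sm n d (g - gin M a) (sh A B q) →
      Sm n (C * (d + (|M' - M| + |a' - a|))) (pb (sh A B) g - kE M' a' A' B') q := by
  have M0 := P354YR.M_pos h
  let J := {i : (Tw × (ℝ → ℝ) × (ℝ → ℝ)) × ((ℝ × ℝ) × (ℝ → ℝ) × (ℝ → ℝ)) × R4 × ℝ //
    (IsTh M i.2.1.1.1 i.2.1.1.2 i.2.1.2.1 i.2.1.2.2 ∧ IsTh M M a i.1.2.1 i.1.2.2) ∧
    |i.2.1.1.1 - M| + |i.2.1.1.2 - a| ≤ M / 2 ∧
    R ≤ rd i.2.2.1 ∧ 0 ≤ i.2.2.2 ∧ Sb i.1.1 (sh i.1.2.1 i.1.2.2 i.2.2.1) ∧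
    Sm n i.2.2.2 (i.1.1 - gin M a) (sh i.1.2.1 i.1.2.2 i.2.2.1)}
  let A : J → ℝ → ℝ := fun j => j.1.1.2.1
  let B : J → ℝ → ℝ := fun j => j.1.1.2.2
  have t : ∀ j, IsTh M M a (A j) (B j) := fun j => j.2.1.2
  let q : J → R4 := fun j => j.1.2.2.1
  let δ : J → ℝ := fun j => |j.1.2.1.1.1 - M| + |j.1.2.1.1.2 - a|
  let y : J → R4 := fun j => ri q j • q j
  have hq : ∀ j, 1 + 4 * M ≤ rd (q j) := fun j => by linarith [j.2.2.2.1]
  have r0 := r_pos M0.le hq
  have hy : ∀ j, rd (y j) = 1 := fun j => by rw [rd_sm (ri_nn j), mul_comm, r_ri M0.le hq]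
  have nb : ∀ j m b, |m| ≤ 3 / 2 * M → |b| ≤ 3 / 2 * M → ‖ri q j • (M, m, b)‖ ≤ 1 / 4 :=
    fun j m b hm hb => by
      rw [norm_smul, Real.norm_of_nonneg (ri_nn j), inv_mul_le_iff₀ (r0 j)]
      refine le_trans (b := 3 / 2 * M) (max_le ?_ (max_le hm hb)) (by linarith [j.2.2.2.1])
      rw [Real.norm_of_nonneg M0.le]
      linarith
  have n1 := fun j => nb j M a (by rw [abs_of_pos M0]; linarith) (by linarith)
  have m' : ∀ j : J, |j.1.2.1.1.1| ≤ 3 / 2 * M := fun j => by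
    linarith [j.2.2.1, abs_nonneg (j.1.2.1.1.2 - a), abs_sub_abs_le_abs_sub j.1.2.1.1.1 M,
      abs_of_pos M0]
  have n2 := fun j : J => nb j _ j.1.2.1.1.2 (m' j) (by
    linarith [j.2.2.1, abs_nonneg (j.1.2.1.1.1 - M), abs_sub_abs_le_abs_sub j.1.2.1.1.2 a])
  have dd : ∀ j : J, ‖ri q j • (M, M, a) - ri q j • (M, j.1.2.1.1.1, j.1.2.1.1.2)‖ ≤
      (δ * ri q) j := fun j => by
    rw [← smul_sub, norm_smul, Real.norm_of_nonneg (ri_nn j), mul_comm, norm_sub_rev]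
    refine mul_le_mul_of_nonneg_right (max_le (by simp only [Prod.fst_sub, sub_self, norm_zero]; positivity)
      (max_le (le_add_of_nonneg_right (abs_nonneg _)) (le_add_of_nonneg_left (abs_nonneg _))))
      (ri_nn j)
  have ev : ∀ j, ∀ᶠ x in 𝓝 (y j), 6 * M < rd (q j) * rd x := fun j =>
    continuousAt_const.eventually_lt (continuousAt_const.mul rd_cont.continuousAt)
      (by rw [hy, mul_one]; linarith [j.2.2.2.1])
  have fd := fun j x (hx : 6 * M < rd (q j) * rd x) => far_fd M0 (t j) (by linarith) (r0 j) hx.le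
  have y0 : ∀ j, rd (y j) ≠ 0 := fun j => (hy j).symm ▸ one_ne_zero
  have θ : Oj n y (fun j x => rot (B j (rd (q j) * rd x))) 1 :=
    Oj.comp (f := fun j x => B j (rd (q j) * rd x)) (fun j => (th_cd M0 (t j)).2.contDiffAt.comp _
      (contDiffAt_const.mul (rd_cd (y0 j)))) n
      (((oj_par (fun _ => z_om) hy _ n1 n2 dd).1.smull
        (oj_par (fun _ => z_dr) hy _ n1 n2 dd).1).congr fun j => by
        filter_upwards [ev j, ev_dif (rd_cd (y0 j)), rd_cont.continuousAt.eventually_ne (y0 j)]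
          with x h1 h2 h3
        rw [show fderiv ℝ rd (pr0 x) = fderiv ℝ rd x from ContinuousLinearMap.ext fun v =>
          (rd_fd (p := pr0 x) h3 v).trans (rd_fd h3 v).symm]
        exact ((fd j x h1).1.comp_hasFDerivAt x h2.hasFDerivAt).fderiv) (oj_rot n _)
  let φ : J → R4 → R4 := fun j x => ri q j • sh (A j) (B j) (rd (q j) • x)
  have sc : ∀ j, ContDiffAt ℝ ∞ (fun x => sh (A j) (B j) (rd (q j) • x)) (y j) := fun j =>
    at_comp (G := sh (A j) (B j)) ((r_sc M0.le hq j).symm ▸ P354YO.sh_cd (r0 j).ne'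
      (th_cd M0 (t j)).1.contDiffAt (th_cd M0 (t j)).2.contDiffAt) (contDiffAt_id.const_smul _)
  have dφ : ∀ j x, fderiv ℝ (φ j) x = fderiv ℝ (sh (A j) (B j)) (rd (q j) • x) := fun j x => by
    rw [show φ j = ri q j • fun x => sh (A j) (B j) (rd (q j) • x) from rfl, fderiv_const_smul_field,
      Pi.smul_apply, fderiv_comp_smul, smul_smul, mul_comm, r_ri M0.le hq, one_smul]
  have H := sy_sm (x := fun j => sh (A j) (B j) (q j)) M0.le (fun j => (rd_sh (A j) (B j) _).symm ▸ hq j)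
    (fun j => j.2.2.2.2.2.1.sub (sb_gin ((rd_sh (A j) (B j) _).symm ▸ r0 j))) (fun j => j.2.2.2.2.1)
    fun j => j.2.2.2.2.2.2
  simp only [Sy, ri, rd_sh] at H
  have P := Oj.pb (f := φ) (fun j => (sc j).const_smul _) ((θ.cl
    (oj_par (fun _ => z_lam) hy n n1 n2 dd).1).congr fun j => (ev j).mono fun x hx =>
      (dφ j x).trans (fd j x hx).2) (by simpa only [φ, y, r_sc M0.le hq] using H)
  have K := (oj_par (fun _ => z_kk) hy n n1 n2 dd).2
  have l0 : ∀ j, 0 ≤ ri q j := ri_nn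
  obtain ⟨C, C0, hC⟩ := ((P.mono le_rfl (ν := fun j => (j.1.2.2.2 + δ j) * ri q j) fun j =>
    mul_le_mul (le_add_of_nonneg_right (by positivity)) (by simp only [ri, rd_sh, le_refl])
      (ri_nn j) (add_nonneg j.2.2.2.2.1 (by positivity))).add (K.mono le_rfl fun j =>
      mul_le_mul_of_nonneg_right (le_add_of_nonneg_left j.2.2.2.2.1) (l0 j))).bd'
    (g := fun j x => (pb (sh (A j) (B j)) j.1.1.1 - kE j.1.2.1.1.1 j.1.2.1.1.2 j.1.2.1.2.1 j.1.2.1.2.2)
      (rd (q j) • x)) fun j => by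
      have b : ∀ᶠ z in 𝓝 (sh (A j) (B j) (rd (q j) • y j)), P354.Bilin (j.1.1.1 z) := by
        rw [r_sc M0.le hq]
        exact j.2.2.2.2.2.1.bl
      filter_upwards [ev j, (sc j).continuousAt.eventually b] with x h1 h2 v w
      simp only [add_apply, sub_apply, P354RC.pb_ap, dφ, φ, smul_smul, r_ri M0.le hq, one_smul,
        Pi.sub_apply, ← far_kE M0 (t j) (by linarith) (r0 j) h1.le,
        ← far_kE M0 j.2.1.1 ((le_abs_self _).trans (m' j)) (r0 j) h1.le,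
        tb_ap (g := j.1.1.1 - gin M a) (bil_sub h2 (gin_bil M a _))]
      exact (sub_add_sub_cancel _ _ _).symm
  refine ⟨C * 2 ^ (n + 1), by positivity,
    fun g A0 B0 M' a' A' B' x d h0 h1 h2 h3 h4 h5 h6 k hk v w => ?_⟩
  let j : J := ⟨((g, A0, B0), ((M', a'), A', B'), x, d), ⟨h1, h0⟩, h2, h3, h4, h5, h6⟩
  have e := hC j k hk v w
  have r1 : 1 ≤ rd x := r_one M0.le hq j
  rw [it_sc (r0 j).ne' fun z => (pb (sh A0 B0) g - kE M' a' A' B') z v w, r_sc M0.le hq j, norm_smul,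
    Real.norm_of_nonneg (pow_pos (r0 j) k).le, ← le_div_iff₀' (pow_pos (r0 j) k)] at e
  refine e.trans ?_
  change C * ((d + (|M' - M| + |a' - a|)) * (rd x)⁻¹) * _ / rd x ^ k ≤ _
  rw [mul_div_right_comm]
  refine mul_le_mul_of_nonneg_right ?_ (by positivity)
  rw [← mul_assoc, ← div_eq_mul_inv, div_div, ← pow_succ', div_le_div_iff₀ (by positivity)
    (by positivity), mul_right_comm C (2 ^ _), mul_assoc _ (2 ^ _)]
  refine mul_le_mul_of_nonneg_left ?_ (by positivity)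
  calc (1 + rd x) ^ (k + 1) ≤ (2 * rd x) ^ (k + 1) := by gcongr; linarith
    _ ≤ _ := by rw [mul_pow]; gcongr; norm_num

theorem ex_th {M0 : ℝ} (M a : ℝ) (h : 0 < M0) : ∃ A B, IsTh M0 M a A B :=
  have c : Continuous fun r : ℝ => (M, a, r) := by fun_prop
  ⟨_, _, fun r => ⟨(((P354BO.hs_sm h).continuous.comp c).sub continuous_const).integral_hasStrictDerivAt
    0 r |>.hasDerivAt, (continuous_const.mul ((P354BO.js_sm h).continuous.comp c)
      ).integral_hasStrictDerivAt 0 r |>.hasDerivAt⟩⟩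

theorem jwl : P354F2.JWL := by
  refine ⟨fun _ M a h => ex_th M a h, fun M0 a0 R n h hR => ?_⟩
  have m := P354YR.M_pos h
  obtain ⟨C, C0, k⟩ := laymU (R := R) n h (by linarith)
  refine ⟨C * 2 ^ (n + 1), by positivity, M0 / 2, half_pos m,
    fun g gc M a A B A' B' q c d t t' e r c1 c2 d0 ⟨W, l, hq⟩ eq s j hj v w => ?_⟩
  have r0 : 0 < rd q := by linarith
  have u := th_cd m t
  have a1 : ContDiffAt ℝ ∞ (sh (-A) (-B)) (sh A B q) :=
    P354YO.sh_cd ((rd_sh A B q).symm ▸ r0.ne') u.1.neg.contDiffAt u.2.neg.contDiffAt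
  have a2 : ContDiffAt ℝ ∞ (sh A B) (sh (-A) (-B) (sh A B q)) :=
    (P354YO.sh_inv A B q).symm ▸ P354YO.sh_cd r0.ne' u.1.contDiffAt u.2.contDiffAt
  have sb : Sb gc (sh A B q) := by
    have b : Sb (pb (sh A B) gc) (sh (-A) (-B) (sh A B q)) :=
      (P354YO.sh_inv A B q).symm ▸ (P354YO.sb_lv l hq).congr eq.symm
    refine (b.pull a1).congr ?_
    have := P354XA.pb_two (g := gc) (w := id) a1 a2 (.of_forall (P354YO.sh_inv' A B))
    rw [P354YO.pb_id] at this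
    exact this.symm
  have i : (fun x => (g - pb (sh A' B') (gin M a)) x v w) =ᶠ[𝓝 q]
      fun x => (pb (sh A B) gc - kE M a A' B') x v w := eq.mono fun x hx => by
    simp only [Pi.sub_apply, hx, kE]
  rw [(i.iteratedFDeriv ℝ j).eq_of_nhds]
  refine (k gc A B M a A' B' q d t t' e r d0 sb s j hj v w).trans
    (mul_le_mul_of_nonneg_right ?_ (by positivity))
  rw [div_div, ← pow_succ', ← add_assoc, div_le_div_iff₀ (by positivity) (by positivity),
    mul_right_comm C (2 ^ _), mul_assoc _ (2 ^ _)]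
  refine mul_le_mul_of_nonneg_left ?_ (by positivity)
  calc c ^ (j + 1) ≤ (2 * (1 + rd q)) ^ (j + 1) := by gcongr; linarith
    _ ≤ _ := by rw [mul_pow]; gcongr; norm_num

end Vale.Agent.P354FC
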