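import Vale.Agent.P354FC.Defs

/-!
The three parts of the row: two pointwise bounds and the integration.
-/

open Set Filter

noncomputable section

namespace Vale.Agent.P354FC

open Vale.Agent.P354XG Vale.Agent.P354XD Vale.Agent.P354XR Vale.Agent.P354XI Vale.Agent.P354Z
open Vale.Agent.P354SI

/-- The bulk density at bounded radius. -/
def PWN (P : Pr) : Prop := ∃ n, ∀ ρ : ℝ, ∃ C, 0 ≤ C ∧ ∀ᶠ σ in F0 P n, ∀ (j : ℕ), ∀ x ∈ σ.E.O1,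
  An x → P.c.t1 + j ≤ x.1 → x.1 ≤ P.c.t1 + j + 2 → P.c.R1 - 1 ≤ x.2.1 → x.2.1 ≤ ρ →
  ∀ b, ∀ i ≤ P.n0, σ.la b ((σ.X 0)^[i] (σ.f b [])) x ≤ C * σ.E.eta n x

/-- The bulk density in the far part; B does not depend on the radius. -/
def PWF (P : Pr) : Prop := ∃ n B, 0 ≤ B ∧ ∀ ρ : ℝ, ∃ K, 0 ≤ K ∧ ∀ᶠ σ in F0 P n, ∀ (j : ℕ),
  ∀ x ∈ σ.E.O1, An x → P.c.t1 + j ≤ x.1 → x.1 ≤ P.c.t1 + j + 2 → P.c.R1 + 3 ≤ x.2.1 →
  x.2.1 ≤ ρ → ∀ b, ∀ i ≤ P.n0, σ.la b ((σ.X 0)^[i] (σ.f b [])) x ≤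
    B * FD σ.c σ.E (P.n0 + 6) x + K * fh P σ j ^ 4

/-- The near part. -/
def NPW : Prop := ∀ P : Pr, P.Ok → PWN P

/-- The integration. -/
def ASM : Prop := ∀ (P : Pr) (G : ℕ → Filter (St P)) (Γ : ℕ → ℝ → St P → ℕ → ℝ), P.Ok →
  Antitone G → PWN P → PWF P → FARQ P G Γ (P.n0 + 6) → (sys P G Γ).FB

theorem fbx_of (a : ASM) (n : NPW) (f : ∀ P : Pr, P.Ok → PWF P) : FBX :=
  fun P G Γ h g q => a P G Γ h g (n P h) (f P h) q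

end Vale.Agent.P354FC
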