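import Vale.Agent.P354FC.Pw
import Vale.Agent.P354XL.Npw
import Vale.Agent.P354YV.Fa

/-!
The row of the bulk at bounded frequencies.
-/

namespace Vale.Agent.P354FC

theorem fbx : FBX := fbx_of' P354YV.asm P354XL.npw

end Vale.Agent.P354FC
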