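import Vale.Agent.P354FC.Fam
import Vale.Agent.P354FC.Parts
import Vale.Agent.P354BO.TwE

/-!
The bulk density in the far part.
-/

open Set Finset Topology
open Filter hiding pmap

noncomputable section

namespace Vale.Agent.P354FC

open Vale.Agent.P354XG Vale.Agent.P354XD Vale.Agent.P354XR Vale.Agent.P354XI Vale.Agent.P354Z
open Vale.Agent.P354XZ (Ch)
open Vale.Agent.P354XT (Op)
open Vale.Agent.P354BF (De)
open Vale.Agent.P354XL (sinv sinv_sm)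
open Vale.Agent.P354YF (jet0 rr_pos one_le_rr jet_zero jet_Tk jet_mono Tk_mul Tk_comm)
open Vale.Agent.P354YK (Fm hpi ppi gpi hpi_hom hhom_Om)
open Vale.Agent.P354YH (wt wt_pos wt_le_wt)
open Vale.Agent.P354SI (Pr St oph oD oU F0 fh ev_e ev_LK fh_pos)

theorem L.pt {A : Type} [CommRing A] [Algebra ℂ A] {C : Ch A} {X : Cx C} {k s : ℝ} {n : ℕ}
    {g : A} (hC : C.Is) (h : L X k n g) (e : s - 2 * k ≤ -(9 / 10)) (e' : s ≤ 0) :
    ∃ B, 0 ≤ B ∧ ∀ ρ, ∃ K, 0 ≤ K ∧ ∀ᶠ x in X.F ρ, ∀ i ≤ n,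
      C.rr x ^ s * C.md x ((C.T)^[i] g) ^ 2 ≤
        B * (C.rr x ^ (-(9 / 10) : ℝ) * X.N x ^ 2) + K * X.d x ^ 4 := by
  obtain ⟨B, b0, b⟩ := h
  refine ⟨2 * B ^ 2, by positivity, fun ρ => ?_⟩
  obtain ⟨K, k0, q⟩ := b ρ
  refine ⟨2 * K ^ 2, by positivity, q.mono fun x u i hi => ?_⟩
  have r := rr_pos hC x
  have r1 := one_le_rr hC x
  have m := (jet_zero _).ge.trans ((jet_Tk i 0 g).trans ((jet_mono (by omega) g).trans u))
  have m2 := mul_le_mul_of_nonneg_left ((pow_le_pow_left₀ ((jet0 ..).trans_eq (jet_zero _)) m 2).trans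
    (add_sq_le)) (Real.rpow_nonneg r.le s)
  have a : C.rr x ^ s * (C.rr x ^ (-k)) ^ 2 ≤ C.rr x ^ (-(9 / 10) : ℝ) := by
    rw [← Real.rpow_natCast, ← Real.rpow_mul r.le, ← Real.rpow_add r]
    exact Real.rpow_le_rpow_of_exponent_le r1 (by push_cast; linarith)
  have a1 := mul_le_mul_of_nonneg_left a (show 0 ≤ 2 * B ^ 2 * X.N x ^ 2 by positivity)
  have a2 := mul_le_mul_of_nonneg_left (Real.rpow_le_one_of_one_le_of_nonpos r1 e')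
    (show 0 ≤ 2 * K ^ 2 * X.d x ^ 4 by positivity)
  nlinarith

section pi
variable {J : Type} {A : J → Type} [∀ j, CommRing (A j)] [∀ j, Algebra ℂ (A j)]
  (K : ∀ j, Hp (A j)) (p : ∀ j, Pm (A j)) (G : ∀ j, GHP (A j)) (j : J)

theorem fm_pi (b : Bool) (x y : Fin 4 → ∀ j, A j) : ((kk (hpi K) (ppi p)).Wi b *
    -wq (ps (gpi G)) (fun k => (hpi K).c (ps (gpi G) k)) x y) j = (kk (K j) (p j)).Wi b *
      -wq (ps (G j)) (fun k => (K j).c (ps (G j) k)) (fun i => x i j) fun i => y i j :=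
  congrArg₂ (· * ·) (Wi_pi K p j b) (congrArg Neg.neg (wq_pi j G (fun j => (K j).c) x y))

theorem o3_pi (f : ∀ j, A j) :
    o3 (kk (hpi K) (ppi p)) ((kk (hpi K) (ppi p)).De ^ 2 * (hpi K).ri ^ 3 * f) j =
      o3 (kk (K j) (p j)) ((kk (K j) (p j)).De ^ 2 * (K j).ri ^ 3 * f j) := by
  have a : ∀ f, (kk (hpi K) (ppi p)).R f j = (kk (K j) (p j)).R (f j) :=
    R_hom (hpi_hom K j) (ppi p)
  simp only [o3, a, Pi.mul_apply]
  rfl

end pi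

theorem fm_ap {Φ : Fm} (h : Φ.Ok) (b : Bool) (x y : Fin 4 → Φ.A) (j : Φ.J) :
    (Φ.kc.Wi b * -wq (ps Φ.G) (fun k => h.ch.c (ps Φ.G k)) x y) j = ((Φ.E j).K2 (Φ.c j)).Wi b *
      -wq (ps (Φ.E j).G2) (fun k => cj (ps (Φ.E j).G2 k)) (fun i => x i j) fun i => y i j :=
  fm_pi (fun j => hp (on (Φ.E j).O2)) (fun j => (Φ.E j).p2 (Φ.c j)) (fun j => (Φ.E j).G2) j b x y

theorem o3_ap {Φ : Fm} (h : Φ.Ok) (f : Φ.A) (j : Φ.J) :
    o3 Φ.kc (Φ.kc.De ^ 2 * h.ch.ri ^ 3 * f) j = o3 ((Φ.E j).K2 (Φ.c j))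
      (((Φ.E j).K2 (Φ.c j)).De ^ 2 * (hp (on (Φ.E j).O2)).ri ^ 3 * f j) :=
  o3_pi (fun j => hp (on (Φ.E j).O2)) (fun j => (Φ.E j).p2 (Φ.c j)) j f

variable {P : Pr} (σ : St P)

theorem k_eq : σ.R.k = σ.E.K1 σ.c := by
  rw [Raw.k, σ.RK, σ.Rp]
  exact P354BO.kk_T σ.cone σ.M0 _ _

theorem rX0 (u) : r1 σ.E (σ.X 0 u) = (hp _).d 0 (r1 σ.E u) :=
  (congrArg (fun K : KC _ => r1 σ.E (K.T u)) (k_eq σ)).trans ((ho σ).h1.d 0 u)

theorem rX1 (u) : r1 σ.E (σ.X 1 u) = ((cap σ.E).K1 σ.c).R (r1 σ.E u) :=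
  (congrArg (fun K : KC _ => r1 σ.E (K.R u)) (k_eq σ)).trans
    ((R_hom (ho σ).h1 _ u).trans (congrArg (fun p => (kk _ p).R _) (ho σ).p1))

theorem rX4 (u) : r1 σ.E (σ.X 4 u) = Om (hp _) 2 (r1 σ.E u) := by
  refine (congrArg (fun K : Hp _ => r1 σ.E (Om K 2 u)) σ.RK).trans ?_
  rw [← hhom_Om (ho σ).h1]
  exact congrArg _ ((P354BO.twI σ.cone.op (P354BO.cone_off σ.cone)
    (P354BO.sl_sm (P354BO.js_sm σ.M0) _ _)).Om_eq u).2.2

theorem r_rf {f : ℝ → ℝ} (h : ContDiffOn ℝ (⊤ : ℕ∞) f (Ioi 0)) : r1 σ.E (rf _ f) = rf _ f :=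
  rs_rf _ σ.cone (ho σ).co h

theorem r_oD (e : Op) (u) : r1 σ.E (oph σ.X σ.E.M σ.E.a (oD e) u) =
    ((cap σ.E).K2 σ.c).R (r1 σ.E (oph σ.X σ.E.M σ.E.a e u)) := by
  generalize hv : oph σ.X σ.E.M σ.E.a e u = v
  have a : oph σ.X σ.E.M σ.E.a (oD e) u = σ.X 1 v + rf _ (fun r => sinv (De σ.E.M σ.E.a r)) *
      (rf _ (fun r => 2 * (r ^ 2 + σ.E.a ^ 2)) * σ.X 0 v + rf _ (fun _ => 2 * σ.E.a) * σ.X 4 v) := by
    simp only [oD, oph, hv]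
  rw [a, map_add, map_mul, map_add, map_mul, map_mul, rX0, rX1, rX4, r_rf σ Ho.di_on,
    r_rf σ (by fun_prop), r_rf σ (by fun_prop), (ho σ).rf_W, (ho σ).rf_a, (ho σ).R_sh, di]

theorem r_oU (e : Op) (u) : r1 σ.E (oph σ.X σ.E.M σ.E.a (oU e) u) = ((cap σ.E).K2 σ.c).r *
    ((cap σ.E).K2 σ.c).r * ((cap σ.E).K2 σ.c).R (r1 σ.E (oph σ.X σ.E.M σ.E.a e u)) := by
  rw [← r_oD, ← (ho σ).rf_r, ← r_rf σ (by fun_prop), ← map_mul]
  simp only [oU, oph]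

theorem r_o3 (u) : r1 σ.E (oph σ.X σ.E.M σ.E.a P354SI.o3 u) = o3 ((cap σ.E).K2 σ.c)
    (((cap σ.E).K2 σ.c).De ^ 2 * (hp (on (O3 σ.E))).ri ^ 3 * r1 σ.E u) := by
  rw [P354SI.o3, r_oD, r_oU, r_oU, o3, ← (ho σ).rf_D, ← r_rf σ
    (((ContDiff.pow (by unfold De; fun_prop) 2).mul (sinv_sm.pow 3)).contDiffOn), ← map_mul]
  simp only [oph]

theorem r_f (b : Bool) : r1 σ.E (σ.f b []) =
    ((cap σ.E).K2 σ.c).Wi b * cond b (cap σ.E).G1.P0 (cap σ.E).G1.P4 := by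
  have a : σ.f b [] = σ.R.k.Wi b * cond b σ.R.T.G.P0 σ.R.T.G.P4 := by
    rw [St.f, P354XF.Brg.fm, P354XF.Brg.XW, P354XF.Brg.e0, P354XF.Duo.F_smul, P354XF.Duo.F_one]
    cases b <;> rfl
  rw [a, k_eq, σ.RG, map_mul]
  refine congrArg₂ (· * ·) ((Wi_hom (ho σ).h1 _ b).trans ((congrArg (fun p => (kk _ p).Wi b)
    (ho σ).p1).trans (congrFun (kIO _ _ _ _).2 b))) ?_
  cases b
  exacts [(ho σ).g1.P4, (ho σ).g1.P0]

variable (P)

/-- The two functions. -/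
def UU (b : Bool) : (fam P).A := fun σ => r1 σ.E (σ.f b [])

variable {P}

theorem UU_eq (b : Bool) : UU P b = (fam P).kc.Wi b * -wq (ps (fam P).G)
    (fun k => (ch P).c (ps (fam P).G k)) (xx P (cond b 0 1)) (xx P (cond b 2 3)) := by
  funext σ
  rw [fm_ap fok]
  refine (r_f σ b).trans ((congrArg (HMul.hMul _) ((ho σ).wy b)).trans ?_)
  rfl

theorem r_Tk (b : Bool) (i : ℕ) :
    r1 σ.E ((σ.X 0)^[i] (σ.f b [])) = ((ch P).T)^[i] (UU P b) σ := by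
  induction i with
  | zero => rfl
  | succ i ih => rw [Function.iterate_succ_apply', Function.iterate_succ_apply', rX0, ih]; rfl

theorem T_R (f : (fam P).A) : (fam P).kc.R ((ch P).T f) = (ch P).T ((fam P).kc.R f) :=
  fok.cmp.kc.R_T f

theorem T_o3 (i : ℕ) (f : (fam P).A) : o3 (fam P).kc ((fam P).kc.De ^ 2 * (ch P).ri ^ 3 *
    ((ch P).T)^[i] f) = ((ch P).T)^[i] (o3 (fam P).kc ((fam P).kc.De ^ 2 * (ch P).ri ^ 3 * f)) := by
  have h := fok (P := P).cmp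
  have r : (ch P).T (fam P).kc.r = 0 := h.z_r.1
  refine Tk_comm (φ := fun f => o3 _ (_ * f)) (fun f => ?_) i f
  have d : (ch P).T ((fam P).kc.De ^ 2 * (ch P).ri ^ 3) = 0 := by
    simp only [pow_succ, pow_zero, one_mul, KC.De, D_mul, D_add, D_sub, D_num, r, h.z_a.1, h.z_M.1,
      (P354YK.sz_ri h.ch).1, mul_zero, add_zero, sub_zero]
  have e : ∀ {s : (fam P).A}, (ch P).T s = 0 → ∀ f, (ch P).T (s * f) = s * (ch P).T f :=
    fun a f => Tk_mul a 1 f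
  have r2 : (ch P).T ((fam P).kc.r * (fam P).kc.r) = 0 := by rw [e r, r, mul_zero]
  rw [o3, o3, ← T_R, e r2, ← T_R, e r2, ← T_R, e d]

theorem la0 (i : ℕ) : r1 σ.E (oph σ.X σ.E.M σ.E.a P354SI.o3 ((σ.X 0)^[i] (σ.f false []))) =
    ((ch P).T)^[i] (o3 (fam P).kc ((fam P).kc.De ^ 2 * (ch P).ri ^ 3 * UU P false)) σ := by
  rw [r_o3, r_Tk, ← T_o3]
  exact (o3_ap fok _ σ).symm

theorem la1 (i : ℕ) : r1 σ.E (oph σ.X σ.E.M σ.E.a (oD .one) ((σ.X 0)^[i] (σ.f true []))) =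
    ((ch P).T)^[i] ((fam P).kc.R (UU P true)) σ := by
  rw [r_oD, oph, r_Tk, ← Tk_comm T_R]
  exact (Fm.Ok.R_ap (Φ := fam P) _ σ).symm

/-- The pointwise bound on the family. -/
theorem pw_fam (n : ℕ) : ∃ B, 0 ≤ B ∧ ∀ ρ, ∃ K δ, 0 ≤ K ∧ 0 < δ ∧ ∀ x : (ch P).Pt,
    (ch P).rr x ≤ ρ → dd P (n + 3) x ≤ δ → ∀ b, ∀ i ≤ n,
      St.la x.1 b ((St.X x.1 0)^[i] (St.f x.1 b [])) (fok.pt x) ≤
        B * FD x.1.c x.1.E (n + 3) (fok.pt x) + K * dd P (n + 3) x ^ 4 := by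
  have h := fok (P := P)
  have p := (fc (P := P) (n := n + 3)).plus gg
  obtain ⟨B1, b1, q1⟩ := ((fc (P := P) (n := n + 3)).minus gg).pt h.is (s := 1 / 10 - 1)
    (by norm_num) (by norm_num)
  obtain ⟨B2, b2, q2⟩ := (L.RK h.cmp p).pt h.is (s := 1 / 10 - 5) (by norm_num) (by norm_num)
  obtain ⟨B3, b3, q3⟩ := p.pt h.is (s := 1 / 10 - 7) (by norm_num) (by norm_num)
  obtain ⟨B, b0, q⟩ := NN_le (P := P) (n + 3)
  refine ⟨(B1 + B2 + B3) * B, by positivity, fun ρ => ?_⟩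
  obtain ⟨K1, k1, q1⟩ := q1 ρ
  obtain ⟨K2, k2, q2⟩ := q2 ρ
  obtain ⟨K3, k3, q3⟩ := q3 ρ
  obtain ⟨δ, d0, d⟩ := ev_cx dd0 (q1.and (q2.and q3))
  refine ⟨K1 + K2 + K3, δ, by positivity, d0, fun x hx e b i hi => ?_⟩
  obtain ⟨a1, a2, a3⟩ := d x hx e
  have a1 := a1 i hi
  have a2 := a2 i (by omega)
  have a3 := a3 i (by omega)
  have m := (h.pt_mem x).1
  have v : ∀ u, fv u (h.pt x) = fv (r1 (St.E x.1) u) (h.pt x) := fun u => (fv_rs _ u m).symm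
  have n0 : 0 ≤ (ch P).rr x ^ (-(9 / 10) : ℝ) * NN P (n + 3) x ^ 2 :=
    mul_nonneg (Real.rpow_nonneg (rr_pos h.is x).le _) (sq_nonneg _)
  have n1 : 0 ≤ dd P (n + 3) x ^ 4 := by positivity
  have n2 := mul_le_mul_of_nonneg_left (q x) (show 0 ≤ B1 + B2 + B3 by positivity)
  have u0 := UU_eq (P := P) false
  have u1 := UU_eq (P := P) true
  simp only [cond] at u0 u1
  rw [← u0] at a1
  rw [← u1] at a2 a3
  have w : ∀ {u} {f : (fam P).A}, r1 (St.E x.1) u = f x.1 → ‖fv u (h.pt x)‖ = h.ch.md x f :=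
    fun e => congrArg norm ((v _).trans (congrArg (fv · _) e))
  refine le_trans (?_ : _ ≤ (B1 + B2 + B3) * ((ch P).rr x ^ (-(9 / 10) : ℝ) * NN P (n + 3) x ^ 2) +
    (K1 + K2 + K3) * dd P (n + 3) x ^ 4) (by linarith)
  cases b <;> simp only [St.la, cond, ← h.rr_eq]
  · rw [w (la0 x.1 i)]
    refine le_trans a1 ?_
    change B1 * (_ * NN P (n + 3) x ^ 2) + K1 * dd P (n + 3) x ^ 4 ≤ _
    nlinarith [mul_nonneg (add_nonneg b2 b3) n0, mul_nonneg (add_nonneg k2 k3) n1]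
  · rw [w (la1 x.1 i), w (r_Tk x.1 true i)]
    refine le_trans (add_le_add a2 a3) ?_
    change B2 * (_ * NN P (n + 3) x ^ 2) + K2 * dd P (n + 3) x ^ 4 +
      (B3 * (_ * NN P (n + 3) x ^ 2) + K3 * dd P (n + 3) x ^ 4) ≤ _
    nlinarith [mul_nonneg b1 n0, mul_nonneg k1 n1]

theorem pwf (P : Pr) (hP : P.Ok) : PWF P := by
  obtain ⟨B, b0, h⟩ := pw_fam (P := P) (P.n0 + 3)
  obtain ⟨Cb, c0, kb⟩ := P354CV.bootp hP.s1 hP.s3 (2 + ⌈P.c.c0⌉₊)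
  refine ⟨0, B, b0, fun ρ => ?_⟩
  obtain ⟨K, δ, k0, d0, h⟩ := h ρ
  obtain ⟨M, m0, m⟩ := dd_le (P := P) (P.n0 + 6) ρ
  obtain ⟨C, c1, c2⟩ : ∃ C, 0 < C ∧ P.c.C (max ρ (P.c.R1 + 3)) * Cb * 2 ≤ C :=
    ⟨max 1 _, lt_max_of_lt_left one_pos, le_max_right _ _⟩
  refine ⟨K * (M * C) ^ 4, by positivity, ?_⟩
  filter_upwards [ev_LK 0, ev_e 0 (show 0 < min (1 / 2) (δ / ((M + 1) * C)) by positivity)]
    with σ hL he j x x1 xa t1 t2 y1 y2 b i hi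
  obtain ⟨e1, e2⟩ := le_min_iff.1 he.1
  have e0 := σ.e0
  have ok := σ.ok
  have t : 2 ≤ P.c.t1 := ok.t1
  have j0 : (0 : ℝ) ≤ j := j.cast_nonneg
  have R : 10 * P.c.M + 10 ≤ P.c.R1 := ok.R1
  have M0 := σ.M0
  have fa : Est.Fa σ.c x := ⟨y1, by
    have : 0 < x.2.1 := by linarith
    have : 0 ≤ x.1 := by linarith
    unfold uu; positivity⟩
  let z : (ch P).Pt := fok.pk σ x ⟨⟨x1, (σ.is.shape.up x x1 fa).1⟩, xa, by
    change (1 : ℝ) ≤ _; linarith, fa.2⟩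
  have rz : (ch P).rr z ≤ ρ := (fok.rr_eq z).trans_le y2
  have f0 := (fh_pos σ j).le
  have f1 : fh P σ j ≤ σ.eps := mul_le_of_le_one_right e0.le
    (Real.rpow_le_one_of_one_le_of_nonpos (by linarith) (by linarith [hP.s1]))
  have w0 := wt_pos (-P.c.s0) j
  have n0 := σ.is.near.e0
  have u : 0 ≤ P.c.C (max ρ (P.c.R1 + 3)) * Cb := mul_nonneg (zero_le_one.trans (ok.C _)) c0
  have w : (P.c.C (max ρ (P.c.R1 + 3)) * Cb * (σ.E.e0 + σ.eps) * wt (-P.c.s0) j) ^ 2 ≤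
      (C * fh P σ j) ^ 2 := by
    refine pow_le_pow_left₀ (by positivity) (le_trans ?_ (mul_le_mul_of_nonneg_right c2 f0)) 2
    rw [mul_assoc _ 2, mul_assoc _ (_ + _)]
    exact mul_le_mul_of_nonneg_left (by
      rw [fh, ← mul_assoc]; exact mul_le_mul_of_nonneg_right (by linarith [σ.e1]) w0.le) u
  have d := m z rz (C * fh P σ j) (by positivity) fun i => by
    have k := kb (c := σ.c) (zero_le_two.trans t) (zero_le_one.trans ok.c0) σ.is.near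
      (fun x hx n1 => (σ.eta_mono (show P.c.L0 ≤ _ by have := hL.1; omega) x).trans (σ.dec x hx n1)) e0.le
      (by linarith [σ.e1]) (le_max_right ρ _) j x x1 xa (y2.trans (le_max_left _ _)) (by
        push_cast
        exact add_le_add (abs_le.2 ⟨by change _ ≤ x.1 - P.c.t1 - j; linarith,
          by change x.1 - P.c.t1 - j ≤ _; linarith⟩) (Nat.le_ceil _)) i
    have o : P.n0 + 6 ≤ P.c.N0 := by have := hP.N0; omega
    exact ⟨(P354BO.q2_mono _ _ o _).trans (k.1.trans w),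
      (P354BO.q2_mono _ _ o _).trans ((k.2 fa).trans w)⟩
  have s : dd P (P.n0 + 6) z ≤ δ := by
    rw [le_div_iff₀ (by positivity)] at e2
    nlinarith [mul_le_mul_of_nonneg_left f1 (mul_nonneg m0 c1.le), mul_pos e0 c1]
  refine (h z rz s b i (by omega)).trans (add_le_add le_rfl ?_)
  rw [mul_assoc, ← mul_pow, mul_assoc]
  exact mul_le_mul_of_nonneg_left (pow_le_pow_left₀ (dd0 z) d 4) k0

theorem fbx_of' (a : ASM) (n : NPW) : FBX := fbx_of a n pwf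

end Vale.Agent.P354FC
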